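import Claimed.Agent.R285.Loc.Quad2

/-!
# ROW 285, package PK-LOC: [B] Lemma 4.5 = `neutral_localization`, `loc_isotropic` (verbatim exports of `R285/Read/B4.lean` s.5)      (owner helper276)

PROOF (differs from the paper and from the sketch in B4: NO Taylor formula on a real segment).  `w = ψ + f`, `w̃ = w - w(v₀)`, `h(s) = H (s w̃)`.
* `H w = H w̃` (complex constants, `HOK.inv`), `|H w| ≤ M e^{(κ/2) U + V}` (real centre `ψ`, `RegStable.small`).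
* in the disc `|s| < ρ = h₀ / ‖w̃‖_fine` the field `s w̃` lies in the polydisc around the ZERO field: `|h| ≤ M`.
* `Loc/Disc.lean`: `|h(1) - ∑_{k<r} h^{(k)}(0)/k!| ≤ (r+2) M e^{(κ/2) U + V} (4/ρ)^r`, for small AND large fields.
* `1/ρ ≤ (C/L) (1 + (6/h₀) √U)` (`loc_geo`, `loc_sobolev`), `(1 + a√U)^r ≤ E_r e^{κ U/2}`.
* quadratic part: `D²H(0)` is bilinear, `|D²H(0)[a,b]| ≤ 9 M ‖a‖ ‖b‖ / h₀²`, `‖w̃ - lin‖ ≤ (C/L²)(..)` (`loc_geo`), full blocks (`loc_card`).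
-/

set_option autoImplicit false

namespace Claimed.Agent.R285.Loc

open scoped BigOperators ENNReal NNReal
open MeasureTheory ProbabilityTheory
open Claimed.Agent.R285.RG Claimed.Agent.R285.Hol

noncomputable section

variable {G : Geom}

theorem loc_enn (C u : ℝ≥0) (ℓ r : ℕ) {W : ℝ} (_hW : 0 ≤ W) :
    ENNReal.ofReal ((C : ℝ) * u * (((2 : ℝ) ^ ℓ)⁻¹) ^ r * W)
      = (C : ℝ≥0∞) * u * ((2 ^ ℓ : ℝ≥0∞)⁻¹) ^ r * ENNReal.ofReal W := by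
  have h2 : ENNReal.ofReal (((2 : ℝ) ^ ℓ)⁻¹) = (2 ^ ℓ : ℝ≥0∞)⁻¹ := by
    rw [ENNReal.ofReal_inv_of_pos (by positivity), ENNReal.ofReal_pow (by norm_num)]
    norm_num
  rw [ENNReal.ofReal_mul (by positivity), ENNReal.ofReal_mul (by positivity), ENNReal.ofReal_mul (by positivity),
    ENNReal.ofReal_pow (by positivity), h2, ENNReal.ofReal_coe_nnreal, ENNReal.ofReal_coe_nnreal]

theorem loc_fnSize_of_point (p : Par) (g : Grid G) (V : Extra g) (Y : Finset g.I) (F : Fn G) (C u : ℝ≥0) (ℓ r : ℕ)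
    (h : ∀ (φ : G.V → ℝ) (f : G.V → ℂ), tnorm g Y f < p.h0 →
      ‖F (toC φ + f)‖ ≤ (C : ℝ) * u * (((2 : ℝ) ^ ℓ)⁻¹) ^ r * Wt g p.δ p.κ V Y φ) :
    fnSize p g V Y F ≤ (C : ℝ≥0∞) * u * ((2 ^ ℓ : ℝ≥0∞)⁻¹) ^ r := by
  rw [fnSize_le_iff]
  intro φ f hf
  rw [← loc_enn C u ℓ r (Wt_pos _ _ _ _ _ _).le]
  exact coe_nnnorm_le_ofReal (h φ f hf)

/-- every polymer contains a site -/
theorem loc_exists_site (g : Grid G) (hg : g.Ok) {X : Finset g.I} (hX : X.Nonempty) : ∃ v0, v0 ∈ g.sites X := by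
  obtain ⟨a, ha⟩ := hX
  obtain ⟨i, hi⟩ := hg.surj a.1
  obtain ⟨j, hj⟩ := hg.surj a.2
  refine ⟨(i, j), ?_⟩
  rw [Grid.sites, Finset.mem_filter]
  refine ⟨Finset.mem_univ _, ?_⟩
  have : g.blk (i, j) = a := Prod.ext hi hj
  rw [this]; exact ha

/-- **Lemma 4.5.** -/
theorem neutral_localization (R n0 : ℕ) (cst : ℝ≥0) (δ κ : ℝ) (h0 : ℝ≥0) (hδ : 0 < δ) (hκ : 0 < κ) (hh : 0 < h0) :
    ∃ (C : ℝ≥0) (ℓ0 D1 : ℕ), ∀ (p : Par) (col : ℕ), p.δ = δ → p.κ = κ → p.h0 = h0 → 0 < p.ω →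
      ∀ D0 ≥ D1, ∀ (G : Geom) (ℓ : ℕ), ℓ0 ≤ ℓ → ∀ (P : Pair G D0 ℓ) (Γ : Matrix G.V G.V ℝ)
      (Vf : Extra P.g) (Vc : Extra P.g'), Γ.PosSemidef → RegStable R n0 cst p.δ p.κ P Vf Vc Γ →
      ∀ (X : Finset P.g.I) (F : Fn G) (u : ℝ≥0∞), LocalInput p col R n0 P.g Vf X F u →
      ∀ H, H = conv Γ (chargeProj p.ω 0 F) →
        fnSize p P.g' Vc (P.N.cl X) (fun ψ => H ψ - H 0) ≤ C * u * (2 ^ ℓ : ℝ≥0∞)⁻¹ ∧
        ((∀ ψ ∈ strip p.h0 P.g X, F (-ψ) = F ψ) →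
          fnSize p P.g' Vc (P.N.cl X) (fun ψ => H ψ - H 0) ≤ C * u * (2 ^ ℓ : ℝ≥0∞)⁻¹ ^ 2 ∧
          (P.g.Bulk X → ∀ v0 ∈ P.g.sites X,
            ((‖H 0‖₊ : ℝ≥0∞) + ∑ i, ∑ j, (‖DX P.g v0 H i j‖₊ : ℝ≥0∞) ≤ C * u) ∧
            fnSize p P.g' Vc (P.N.cl X) (fun ψ => H ψ - ∑ B ∈ X, Loc P.g X v0 H B ψ) ≤ C * u * (2 ^ ℓ : ℝ≥0∞)⁻¹ ^ 3)) := by
  obtain ⟨Cg0, ℓg, D1, hgeo⟩ := loc_geo R n0
  set Cg : ℝ≥0 := Cg0 + 1 with hCg
  have hCgpos : 0 < Cg := by rw [hCg]; positivity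
  obtain ⟨ℓ1, hℓ1⟩ := pow_unbounded_of_one_lt Cg (one_lt_two : (1 : ℝ≥0) < 2)
  have hh' : (0 : ℝ) < h0 := by exact_mod_cast hh
  set k1 : ℝ := 3 * (4 * Cg) * locE h0 κ 1 with hk1
  set k2 : ℝ := 4 * (4 * Cg) ^ 2 * locE h0 κ 2 with hk2
  set k3 : ℝ := 6 * (4 * Cg) ^ 4 * locE h0 κ 4 + 14 * (Cg : ℝ) ^ 2 * locE h0 κ 2 with hk3
  set k4 : ℝ := 1 + 36 * (Cg : ℝ) ^ 2 / (h0 : ℝ) ^ 2 with hk4
  have hE1 := locE_pos h0 κ 1
  have hE2 := locE_pos h0 κ 2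
  have hE4 := locE_pos h0 κ 4
  have hk1p : 0 ≤ k1 := by positivity
  have hk2p : 0 ≤ k2 := by positivity
  have hk3p : 0 ≤ k3 := by positivity
  have hk4p : 1 ≤ k4 := by rw [hk4]; have : 0 ≤ 36 * (Cg : ℝ) ^ 2 / (h0 : ℝ) ^ 2 := by positivity
                           linarith
  set K : ℝ := k1 + k2 + k3 + k4 with hK
  have hKp : 0 < K := by linarith
  set cn : ℝ≥0 := (max 1 cst) ^ n0 with hcn
  have hcnp : 0 < cn := by rw [hcn]; exact pow_pos (lt_of_lt_of_le one_pos (le_max_left _ _)) _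
  set C : ℝ≥0 := Real.toNNReal K * cn with hC
  have hCp : 0 < C := by rw [hC]; exact mul_pos (Real.toNNReal_pos.2 hKp) hcnp
  have hCr : (C : ℝ) = K * cn := by rw [hC]; push_cast; rw [Real.coe_toNNReal K hKp.le]
  refine ⟨C, max ℓg ℓ1, D1, ?_⟩
  intro p col hpδ hpκ hph hω D0 hD0 G ℓ hℓ P Γ Vf Vc hΓ hreg X F u hin H hH
  have hLne : (2 ^ ℓ : ℝ≥0∞)⁻¹ ≠ 0 := ENNReal.inv_ne_zero.2 (ENNReal.pow_ne_top (by norm_num))
  -- the trivial case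
  by_cases hu : u = ⊤
  · have hCu : (C : ℝ≥0∞) * u = ⊤ := by rw [hu]; exact ENNReal.mul_top (by exact_mod_cast hCp.ne')
    rw [hCu]
    refine ⟨?_, fun _ => ⟨?_, fun _ v0 _ => ⟨le_top, ?_⟩⟩⟩
    · rw [ENNReal.top_mul hLne]; exact le_top
    · rw [ENNReal.top_mul (pow_ne_zero _ hLne)]; exact le_top
    · rw [ENNReal.top_mul (pow_ne_zero _ hLne)]; exact le_top
  lift u to ℝ≥0 using hu
  have hHOK := loc_HOK p col hω P Γ Vf Vc hreg X F u hin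
  rw [← hH] at hHOK
  set M : ℝ := (u : ℝ) * ((max 1 cst : ℝ≥0) : ℝ) ^ n0 with hM
  have hMp : 0 ≤ M := by positivity
  have hCM : (C : ℝ) * u = K * M := by rw [hCr, hM, hcn]; push_cast; ring
  have hLlt : Cg < 2 ^ ℓ := hℓ1.trans_le (pow_le_pow_right₀ one_le_two ((le_max_right _ _).trans hℓ))
  have hctx : ∀ v0 ∈ P.g.sites X, Ctx p.h0 P p.δ p.κ Vc X H M Cg v0 := fun v0 hv0 =>
    { hH := hHOK
      hh := hph ▸ hh
      hδ := (hpδ ▸ hδ).le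
      hκ := hpκ ▸ hκ
      hM := hMp
      hCg := hCgpos
      hL := hLlt
      osc := fun w => ((hgeo D0 hD0 G ℓ ((le_max_left _ _).trans hℓ) P X hin.conn hin.small v0 hv0).1 w).trans (by
        gcongr; rw [hCg]; exact le_self_add) }
  obtain ⟨v1, hv1⟩ := loc_exists_site P.g P.ok hin.conn.1
  have hWp : ∀ φ, 0 < Wt P.g' p.δ p.κ Vc (P.N.cl X) φ := fun φ => Wt_pos _ _ _ _ _ _
  have hLi : (0 : ℝ) < ((2 : ℝ) ^ ℓ)⁻¹ := by positivity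
  -- from a coefficient `k ≤ K` to `C u`
  have hcoef : ∀ (k : ℝ) (r : ℕ) (φ : G.V → ℝ), k ≤ K →
      k * M * (((2 : ℝ) ^ ℓ)⁻¹) ^ r * Wt P.g' p.δ p.κ Vc (P.N.cl X) φ
        ≤ (C : ℝ) * u * (((2 : ℝ) ^ ℓ)⁻¹) ^ r * Wt P.g' p.δ p.κ Vc (P.N.cl X) φ := by
    intro k r φ hk
    rw [hCM]
    have := hWp φ
    gcongr
  refine ⟨?_, fun hevF => ?_⟩
  · have := loc_fnSize_of_point p P.g' Vc (P.N.cl X) (fun ψ => H ψ - H 0) C u ℓ 1 (fun φ f hf => by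
      have h1 := (hctx v1 hv1).p1 φ f hf
      rw [hph, hpκ] at h1
      refine h1.trans ?_
      have h2 := hcoef k1 1 φ (by linarith)
      rw [pow_one] at h2 ⊢
      rw [hpκ] at h2 ⊢
      exact h2)
    rwa [pow_one] at this
  have hevH : ∀ z ∈ strip p.h0 P.g X, H (-z) = H z := fun z hz => by
    rw [hH]; exact loc_Heven p col P.g X F hin.fn Γ hΓ hevF z hz
  refine ⟨?_, fun hB v0 hv0 => ?_⟩
  · exact loc_fnSize_of_point p P.g' Vc (P.N.cl X) (fun ψ => H ψ - H 0) C u ℓ 2 (fun φ f hf => by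
      have h1 := (hctx v1 hv1).p2 hevH φ f hf
      rw [hph, hpκ] at h1
      refine h1.trans ?_
      have h2 := hcoef k2 2 φ (by linarith)
      rw [hpκ] at h2 ⊢
      exact h2)
  have hg := (hgeo D0 hD0 G ℓ ((le_max_left _ _).trans hℓ) P X hin.conn hin.small v0 hv0).2 hB
  have hb : CtxB p.h0 P X Cg v0 :=
    { ell := fun i => (hg.1 i).trans (by rw [hCg]; exact le_self_add)
      aff := fun v hv ε w => (hg.2 v hv ε w).trans (by gcongr; rw [hCg]; exact le_self_add)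
      card := loc_card P.g P.ok X hB
      ne := hin.conn.1 }
  refine ⟨?_, ?_⟩
  · have c := hctx v0 hv0
    have h1 : (‖H 0‖₊ : ℝ≥0∞) ≤ ENNReal.ofReal M := coe_nnnorm_le_ofReal c.H0_le
    have h2 : ∀ i j, (‖DX P.g v0 H i j‖₊ : ℝ≥0∞) ≤ ENNReal.ofReal (9 * M * Cg * Cg / (h0 : ℝ) ^ 2) := fun i j => by
      have := c.DX_le hb i j
      rw [hph] at this
      exact coe_nnnorm_le_ofReal this
    calc (‖H 0‖₊ : ℝ≥0∞) + ∑ i, ∑ j, (‖DX P.g v0 H i j‖₊ : ℝ≥0∞)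
        ≤ ENNReal.ofReal M + ∑ _i : Fin 2, ∑ _j : Fin 2, ENNReal.ofReal (9 * M * Cg * Cg / (h0 : ℝ) ^ 2) :=
          add_le_add h1 (Finset.sum_le_sum fun i _ => Finset.sum_le_sum fun j _ => h2 i j)
      _ = ENNReal.ofReal (k4 * M) := by
          simp only [Finset.sum_const, Finset.card_univ, Fintype.card_fin, nsmul_eq_mul, Nat.cast_ofNat]
          have e2 : (2 : ℝ≥0∞) = ENNReal.ofReal 2 := by norm_num
          rw [e2, ← ENNReal.ofReal_mul (by norm_num), ← ENNReal.ofReal_mul (by norm_num),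
            ← ENNReal.ofReal_add hMp (by positivity)]
          congr 1
          rw [hk4]; field_simp; ring
      _ ≤ ENNReal.ofReal ((C : ℝ) * u) := by
          apply ENNReal.ofReal_le_ofReal
          rw [hCM]
          gcongr
          linarith
      _ = C * u := by
          rw [ENNReal.ofReal_mul (by positivity), ENNReal.ofReal_coe_nnreal, ENNReal.ofReal_coe_nnreal]
  · exact loc_fnSize_of_point p P.g' Vc (P.N.cl X) (fun ψ => H ψ - ∑ B ∈ X, Loc P.g X v0 H B ψ) C u ℓ 3 (fun φ f hf => by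
      have h1 := (hctx v0 hv0).p3 hb hevH φ f hf
      rw [hph, hpκ] at h1
      refine h1.trans ?_
      have h2 := hcoef k3 3 φ (by linarith)
      rw [hpκ] at h2 ⊢
      exact h2)

/-- **Lemma 4.5, last assertion**: for `D = d · Id` the quadratic pieces at a full block sum to `d e_B / 2` (exact identity). -/
theorem loc_isotropic (g : Grid G) (hg : g.Ok) (B : g.I) (d : ℂ) (z : G.V → ℂ) :
    (1 / (2 * (g.m : ℂ) ^ 2)) * ∑ v ∈ g.sites {B}, (1 / 4 : ℂ) * ∑ ε : Fin 2 → Bool, ∑ i, pvec g z v ε i * d * pvec g z v ε i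
      = d / 2 * eBC g B z := by
  have hm : (g.m : ℂ) ≠ 0 := by exact_mod_cast hg.pos.ne'
  have key : ∀ v : G.V, ∑ ε : Fin 2 → Bool, ∑ i, pvec g z v ε i * d * pvec g z v ε i
      = 2 * (g.m : ℂ) ^ 2 * d * ∑ e : Fin 4, dif (dir e) (G.lift z) (G.ι v) ^ 2 := by
    intro v
    rw [← (finTwoArrowEquiv Bool).symm.sum_comp, Fintype.sum_prod_type]
    simp only [Fintype.sum_bool, Fin.sum_univ_two, Fin.sum_univ_four, pvec, finTwoArrowEquiv_symm_apply]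
    simp
    ring
  unfold eBC
  simp only [key]
  rw [Finset.mul_sum, Finset.mul_sum, Finset.mul_sum]
  refine Finset.sum_congr rfl fun v _ => ?_
  field_simp
  ring

end

end Claimed.Agent.R285.Loc
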