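import Claimed.Agent.R285.Reg.Lat

/-!
# ROW 285, package PK-LOC ([B] Lemma 4.5), file 7: the chart of the folded lattice around a site      (architect helper276)      -- KEEP

`G.π : ℤ² → G.V` is the folding map (`G.fold` on each axis: `x % M` on the torus; even reflection for the free square), `G.ι` the canonical lift, `G.lift f = f ∘ G.π`.
`chart G v0 x = ι v0 + (disp1 v0.1 x.1, disp1 v0.2 x.2)` is the lift of `x` which is closest to `ι v0` (`disp1` = `Int.bmod (b - a) M` on the torus, `b - a` on the free square; `Base/RG.lean` s.5),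
so that `RG.ell g v0 i x = (chart G v0 x - ι v0)_i / m` BY DEFINITION.   `Ins G z`: no reflection at `z` (free square: `z` lies in `[0,M)²`; torus: no condition).
Tools (all proved): `Reg.regl_fold_per`, `Reg.regl_fold_free`, `Reg.regl_fold_in`, `Reg.reg_fold_coe`, `Reg.reg_pi_iota`, `Reg.regl_bc`, `Reg.regl_emod_eq`, `Reg.regl_d1_per`, `Reg.regl_d1_free`.

## LEAF `LOC-C1` : `loc_fold_congr`, `loc_chart_pi`, `loc_pi_shift`, `loc_chart_free`   (~150 lines)
PLAN.  `loc_fold_congr`: `Fin.ext`, `Nat`-cast injectivity, `regl_fold_per`: both sides are `x % M = y % M` (`Int.emod_emod_of_dvd`, `Int.ModEq`; `(x - y) % M = 0 → x % M = y % M`: `Int.emod_emod_of_dvd`/`Int.emod_eq_emod_iff_emod_sub_eq_zero`).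
`loc_chart_pi`: `rcases Reg.regl_bc G`.  Free: `disp1 = b - a` (`unfold disp1; rw [h]` or `simp only [disp1, h]`), so `chart = ι x` (`loc_chart_free`).  Torus: `a + Int.bmod (b - a) M + k ≡ b + k (mod M)`: `Int.bmod_emod`/`Int.emod_bmod_congr`:
`(Int.bmod x M) % M = x % M`; then `loc_fold_congr` on each axis (`Prod.ext`, `unfold Geom.π`).
`loc_pi_shift`: torus: `(fold z : ℤ) = z % M ≡ z`; free: `regl_fold_in` gives `ι (π z) = z`.
## LEAF `LOC-C2` : `loc_disp_natAbs`, `loc_disp_fold`, `loc_chart_inv`   (~150 lines)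
PLAN.  `loc_disp_natAbs`: free: `regl_d1_free` + `Int.natAbs_sub_comm`.  Torus: `regl_d1_per`; `Int.bmod_def`: `bmod x M = if x % M < (M + 1) / 2 then x % M else x % M - M`; with `x = b - a ∈ (-M, M)`: `x % M = x` or `x + M` (`Int.emod_eq_of_lt`, `Reg.regl_emod_eq`);
then `omega` (4 cases; all quantities linear once `x % M` and `(M+1)/2` are named: `obtain ⟨q, hq⟩ : ∃ q, (M + 1) / 2 = q`, `omega` handles `/ 2`).
`loc_disp_fold`: torus: `disp1 a (fold y) = bmod ((y % M) - a) M = bmod (y - a) M = y - a` because `2 |y - a| < M` (`Int.bmod_eq_of_le_mul_two`-type lemma, or again `Int.bmod_def` + `regl_emod_eq` + `omega`); free: `regl_fold_in`.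
`loc_chart_inv`: two axes.
## LEAF `LOC-C3` : `loc_dl_shift`, `loc_difs_shift`, `loc_nab_shift`, `loc_lift_shift`   (~80 lines)
PLAN.  `difs a F = Hol.dl (List.ofFn a) F` (`Hol.difs_eq_dl`); by induction on the list (generalising `k`): `∀ k, dl l F (a + k) = dl l F (b + k)` (`Hol.dl_cons`, `dif`, `add_assoc`).  `k = 0` gives the claim.  `nab` is a `Finset.sup` of these.
-/

set_option autoImplicit false

namespace Claimed.Agent.R285.Loc

open scoped BigOperators ENNReal NNReal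
open Claimed.Agent.R285.RG

noncomputable section

variable (G : Geom)

/-- the lift of `x` closest to `ι v0` -/
def chart (v0 x : G.V) : ℤ × ℤ :=
  (((v0.1 : ℕ) : ℤ) + disp1 G v0.1 x.1, ((v0.2 : ℕ) : ℤ) + disp1 G v0.2 x.2)

/-- no reflection at `z` -/
def Ins (z : ℤ × ℤ) : Prop := G.bc = BC.free → (0 ≤ z.1 ∧ z.1 < G.M) ∧ (0 ≤ z.2 ∧ z.2 < G.M)

/-! ### LEAF `LOC-C1` -/

theorem loc_fold_congr (h : G.bc = BC.per) (x y : ℤ) (hxy : (x - y) % G.M = 0) : G.fold x = G.fold y := by
  apply Fin.ext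
  have a := Reg.regl_fold_per G h x
  have b := Reg.regl_fold_per G h y
  have c : x % G.M = y % G.M := Int.emod_eq_emod_iff_emod_sub_eq_zero.2 hxy
  have d := a.trans (c.trans b.symm)
  exact_mod_cast d

theorem loc_disp_free (h : G.bc = BC.free) (a b : Fin G.M) : disp1 G a b = (b : ℤ) - a := by
  unfold disp1
  rw [h]

theorem loc_disp_per (h : G.bc = BC.per) (a b : Fin G.M) : disp1 G a b = Int.bmod ((b : ℤ) - a) G.M := by
  unfold disp1
  rw [h]

theorem loc_chart_free (h : G.bc = BC.free) (v0 x : G.V) : chart G v0 x = G.ι x := by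
  unfold chart Geom.ι
  rw [loc_disp_free G h, loc_disp_free G h]
  refine Prod.ext ?_ ?_ <;> simp

/-- the chart point is a lift of `x`, with the same neighbourhood -/
theorem loc_chart_pi (v0 x : G.V) (k : ℤ × ℤ) : G.π (chart G v0 x + k) = G.π (G.ι x + k) := by
  rcases Reg.regl_bc G with h | h
  · have key : ∀ (a b : Fin G.M) (c : ℤ), G.fold (((a : ℕ) : ℤ) + disp1 G a b + c) = G.fold (((b : ℕ) : ℤ) + c) := by
      intro a b c
      refine loc_fold_congr G h _ _ ?_
      rw [loc_disp_per G h]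
      have e := Int.emod_eq_emod_iff_emod_sub_eq_zero.1 (Int.bmod_emod (x := (b : ℤ) - a) (m := G.M))
      have e2 : ((a : ℕ) : ℤ) + Int.bmod ((b : ℤ) - a) G.M + c - (((b : ℕ) : ℤ) + c) =
          Int.bmod ((b : ℤ) - a) G.M - ((b : ℤ) - a) := by ring
      rw [e2]
      exact e
    unfold Geom.π chart Geom.ι
    exact Prod.ext (key _ _ _) (key _ _ _)
  · rw [loc_chart_free G h]

theorem loc_pi_shift (z : ℤ × ℤ) (hz : Ins G z) (k : ℤ × ℤ) : G.π (G.ι (G.π z) + k) = G.π (z + k) := by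
  rcases Reg.regl_bc G with h | h
  · have key : ∀ (a c : ℤ), G.fold ((((G.fold a : Fin G.M) : ℕ) : ℤ) + c) = G.fold (a + c) := by
      intro a c
      refine loc_fold_congr G h _ _ ?_
      rw [Reg.regl_fold_per G h]
      have e := Int.emod_eq_emod_iff_emod_sub_eq_zero.1 (Int.emod_emod_of_dvd a (dvd_refl (G.M : ℤ)))
      have e2 : a % (G.M : ℤ) + c - (a + c) = a % (G.M : ℤ) - a := by ring
      rw [e2]
      exact e
    unfold Geom.π Geom.ι
    exact Prod.ext (key _ _) (key _ _)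
  · obtain ⟨⟨a1, a2⟩, ⟨b1, b2⟩⟩ := hz h
    have e : G.ι (G.π z) = z := by
      unfold Geom.π Geom.ι
      exact Prod.ext (Reg.regl_fold_in G _ a1 a2) (Reg.regl_fold_in G _ b1 b2)
    rw [e]

/-! ### LEAF `LOC-C2` -/

theorem loc_disp_natAbs (a b : Fin G.M) : (disp1 G a b).natAbs = Reg.regD1 G a b := by
  have ha := a.2
  have hb := b.2
  rcases Reg.regl_bc G with h | h
  · rw [loc_disp_per G h, Reg.regl_d1_per G h, Int.bmod_def]
    rcases le_or_gt (0 : ℤ) ((b : ℤ) - a) with hx | hx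
    · have hr : ((b : ℤ) - a) % (G.M : ℤ) = (b : ℤ) - a := Int.emod_eq_of_lt hx (by omega)
      rw [hr]
      split_ifs <;> omega
    · have hr : ((b : ℤ) - a) % (G.M : ℤ) = (b : ℤ) - a + G.M :=
        Reg.regl_emod_eq _ _ (-1) _ (by ring) (by omega) (by omega)
      rw [hr]
      split_ifs <;> omega
  · rw [loc_disp_free G h, Reg.regl_d1_free G h]
    omega

theorem loc_disp_fold (a : Fin G.M) (y : ℤ) (hy : 2 * (y - (a : ℕ)).natAbs < G.M) (hf : G.bc = BC.free → 0 ≤ y ∧ y < G.M) :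
    disp1 G a (G.fold y) = y - (a : ℕ) := by
  rcases Reg.regl_bc G with h | h
  · rw [loc_disp_per G h, Reg.regl_fold_per G h, Int.bmod_def]
    rcases le_or_gt (0 : ℤ) (y - (a : ℕ)) with hx | hx
    · have hr : (y % (G.M : ℤ) - ((a : ℕ) : ℤ)) % (G.M : ℤ) = y - (a : ℕ) :=
        Reg.regl_emod_eq _ _ (-(y / G.M)) _ (by rw [Int.emod_def]; ring) hx (by omega)
      rw [hr]
      split_ifs <;> omega
    · have hr : (y % (G.M : ℤ) - ((a : ℕ) : ℤ)) % (G.M : ℤ) = y - (a : ℕ) + G.M :=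
        Reg.regl_emod_eq _ _ (-(y / G.M) - 1) _ (by rw [Int.emod_def]; ring) (by omega) (by omega)
      rw [hr]
      split_ifs <;> omega
  · obtain ⟨a1, a2⟩ := hf h
    rw [loc_disp_free G h, Reg.regl_fold_in G _ a1 a2]

/-- the chart inverts the folding map near `ι v0` -/
theorem loc_chart_inv (v0 : G.V) (z : ℤ × ℤ) (hz : Ins G z) (h1 : 2 * (z.1 - (v0.1 : ℕ)).natAbs < G.M)
    (h2 : 2 * (z.2 - (v0.2 : ℕ)).natAbs < G.M) : chart G v0 (G.π z) = z := by
  unfold chart Geom.π
  simp only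
  rw [loc_disp_fold G v0.1 z.1 h1 (fun h => (hz h).1), loc_disp_fold G v0.2 z.2 h2 (fun h => (hz h).2)]
  refine Prod.ext ?_ ?_ <;> simp

/-! ### LEAF `LOC-C3` -/

variable {G}

theorem loc_dl_shift {α : Type} [AddGroup α] (l : List (Fin 4)) (F : ℤ × ℤ → α) {a b : ℤ × ℤ} (h : ∀ k, F (a + k) = F (b + k)) :
    ∀ k, Hol.dl l F (a + k) = Hol.dl l F (b + k) := by
  induction l with
  | nil => exact h
  | cons i l ih =>
    intro k
    rw [Hol.dl_cons]
    simp only [dif]
    rw [add_assoc, add_assoc, ih, ih]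

theorem loc_difs_shift {α : Type} [AddGroup α] {r : ℕ} (w : Fin r → Fin 4) (F : ℤ × ℤ → α) {a b : ℤ × ℤ}
    (h : ∀ k, F (a + k) = F (b + k)) : difs w F a = difs w F b := by
  have := loc_dl_shift (List.ofFn w) F h 0
  rw [add_zero, add_zero] at this
  exact this

theorem loc_nab_shift {α : Type} [NormedAddCommGroup α] (r : ℕ) (F : ℤ × ℤ → α) {a b : ℤ × ℤ}
    (h : ∀ k, F (a + k) = F (b + k)) : nab r F a = nab r F b := by
  unfold nab
  refine Finset.sup_congr rfl fun w _ => ?_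
  rw [loc_difs_shift w F h]

theorem loc_lift_shift {α : Type} (f : G.V → α) {a b : ℤ × ℤ} (h : ∀ k, G.π (a + k) = G.π (b + k)) (k : ℤ × ℤ) :
    G.lift f (a + k) = G.lift f (b + k) := by
  unfold Geom.lift
  rw [h]

end

end Claimed.Agent.R285.Loc
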