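import Claimed.Agent.R285.Hol.Tn

/-!
# ROW 285, package PK-LOC ([B] Lemma 4.5), file 4: the derivative part `dnorm` of the test norm      (owner helper276)

`dnorm g X f = max_{v ∈ D_m(X)} max (m |∇f(v)|, m² |∇²f(v)|)`: the part of `tnorm` which is blind to constants.
-/

set_option autoImplicit false

namespace Claimed.Agent.R285.Loc

open scoped BigOperators ENNReal NNReal
open Claimed.Agent.R285.RG Claimed.Agent.R285.Hol

noncomputable section

variable {G : Geom}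

/-- the derivative part of the test norm -/
def dnorm {α : Type} [NormedAddCommGroup α] (g : Grid G) (X : Finset g.I) (f : G.V → α) : ℝ≥0 :=
  (g.Dm X).sup fun v => max ((g.m : ℝ≥0) * nab 1 (G.lift f) (G.ι v)) ((g.m : ℝ≥0) ^ 2 * nab 2 (G.lift f) (G.ι v))

theorem dnorm_le_iff {α : Type} [NormedAddCommGroup α] (g : Grid G) (X : Finset g.I) (f : G.V → α) (c : ℝ≥0) :
    dnorm g X f ≤ c ↔ ∀ v ∈ g.Dm X,
      (∀ a : Fin 1 → Fin 4, (g.m : ℝ≥0) * ‖difs a (G.lift f) (G.ι v)‖₊ ≤ c) ∧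
      ∀ a : Fin 2 → Fin 4, (g.m : ℝ≥0) ^ 2 * ‖difs a (G.lift f) (G.ι v)‖₊ ≤ c := by
  unfold dnorm nab
  simp only [Finset.sup_le_iff, max_le_iff, NNReal.mul_finset_sup, Finset.mem_univ, true_implies]

theorem dnorm_spec {α : Type} [NormedAddCommGroup α] (g : Grid G) (X : Finset g.I) (f : G.V → α) :
    ∀ v ∈ g.Dm X,
      (∀ a : Fin 1 → Fin 4, (g.m : ℝ≥0) * ‖difs a (G.lift f) (G.ι v)‖₊ ≤ dnorm g X f) ∧
      ∀ a : Fin 2 → Fin 4, (g.m : ℝ≥0) ^ 2 * ‖difs a (G.lift f) (G.ι v)‖₊ ≤ dnorm g X f :=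
  (dnorm_le_iff g X f _).1 le_rfl

/-- the same with `nab` -/
theorem dnorm_nab {α : Type} [NormedAddCommGroup α] (g : Grid G) (X : Finset g.I) (f : G.V → α) {v : G.V} (hv : v ∈ g.Dm X) :
    (g.m : ℝ≥0) * nab 1 (G.lift f) (G.ι v) ≤ dnorm g X f ∧ (g.m : ℝ≥0) ^ 2 * nab 2 (G.lift f) (G.ι v) ≤ dnorm g X f := by
  have h := Finset.le_sup (f := fun v => max ((g.m : ℝ≥0) * nab 1 (G.lift f) (G.ι v))
    ((g.m : ℝ≥0) ^ 2 * nab 2 (G.lift f) (G.ι v))) hv
  exact ⟨(le_max_left _ _).trans h, (le_max_right _ _).trans h⟩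

theorem dnorm_le_tnorm {α : Type} [NormedAddCommGroup α] (g : Grid G) (X : Finset g.I) (f : G.V → α) :
    dnorm g X f ≤ tnorm g X f := by
  rw [dnorm_le_iff]
  intro v hv
  exact (tnorm_spec g X f v hv).2

theorem dnorm_add_le {α : Type} [NormedAddCommGroup α] (g : Grid G) (X : Finset g.I) (f f' : G.V → α) :
    dnorm g X (f + f') ≤ dnorm g X f + dnorm g X f' := by
  rw [dnorm_le_iff]
  intro v hv
  obtain ⟨h1, h2⟩ := dnorm_spec g X f v hv
  obtain ⟨h1', h2'⟩ := dnorm_spec g X f' v hv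
  refine ⟨fun a => ?_, fun a => ?_⟩
  · rw [lift_add, difs_add]
    calc (g.m : ℝ≥0) * ‖difs a (G.lift f) (G.ι v) + difs a (G.lift f') (G.ι v)‖₊
        ≤ (g.m : ℝ≥0) * (‖difs a (G.lift f) (G.ι v)‖₊ + ‖difs a (G.lift f') (G.ι v)‖₊) := by
          gcongr; exact nnnorm_add_le _ _
      _ ≤ _ := by rw [mul_add]; exact add_le_add (h1 a) (h1' a)
  · rw [lift_add, difs_add]
    calc (g.m : ℝ≥0) ^ 2 * ‖difs a (G.lift f) (G.ι v) + difs a (G.lift f') (G.ι v)‖₊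
        ≤ (g.m : ℝ≥0) ^ 2 * (‖difs a (G.lift f) (G.ι v)‖₊ + ‖difs a (G.lift f') (G.ι v)‖₊) := by
          gcongr; exact nnnorm_add_le _ _
      _ ≤ _ := by rw [mul_add]; exact add_le_add (h2 a) (h2' a)

theorem dnorm_toC_le (g : Grid G) (X : Finset g.I) (f : G.V → ℝ) : dnorm g X (toC f) ≤ dnorm g X f := by
  rw [dnorm_le_iff]
  intro v hv
  obtain ⟨h1, h2⟩ := dnorm_spec g X f v hv
  have h' : G.lift (toC f) = fun y => (Complex.ofRealHom.toAddMonoidHom) (G.lift f y) := by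
    ext y; simp [toC, Geom.lift]
  refine ⟨fun a => ?_, fun a => ?_⟩
  · rw [h', difs_map]; simpa using h1 a
  · rw [h', difs_map]; simpa using h2 a

end

end Claimed.Agent.R285.Loc
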