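import Claimed.Agent.R285.Hol.Ch
import Claimed.Agent.R285.Hol.Cv
import Claimed.Agent.R285.Hol.Sz
import Claimed.Agent.R285.Reg.Gauss

/-!
# ROW 285, package PK-LOC ([B] Lemma 4.5), file 3: the function `H = E F₀ (· + ζ)`      (owner helper276)

`HOK` collects everything the localisation uses about `H = conv Γ (chargeProj ω 0 F)`: holomorphy in the FINE strip, the bound with the half-exponent reserve at every real centre
(`RegStable.small`), invariance under COMPLEX constants.  `loc_HOK` proves it from the hypotheses of `neutral_localization`; `loc_Heven` is the evenness.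
-/

set_option autoImplicit false

namespace Claimed.Agent.R285.Loc

open scoped BigOperators ENNReal NNReal
open MeasureTheory ProbabilityTheory
open Claimed.Agent.R285.RG Claimed.Agent.R285.Hol

noncomputable section

variable {G : Geom}

/-- what the localisation uses about `H` -/
structure HOK (h0 : ℝ≥0) {D0 ℓ : ℕ} (P : Pair G D0 ℓ) (δ κ : ℝ) (Vc : Extra P.g') (X : Finset P.g.I) (H : Fn G) (M : ℝ) : Prop where
  hol : Hol h0 P.g X H
  bd : ∀ (φ : G.V → ℝ) (d : G.V → ℂ), tnorm P.g X d < h0 → ‖H (toC φ + d)‖ ≤ M * Wt P.g' δ (κ / 2) Vc (P.N.cl X) φ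
  inv : ∀ (z : G.V → ℂ) (c : ℂ), z ∈ strip h0 P.g X → (fun v => z v + c) ∈ strip h0 P.g X → H (fun v => z v + c) = H z

theorem loc_hint {R n0 : ℕ} {cst : ℝ≥0} {δ κ : ℝ} {D0 ℓ : ℕ} {P : Pair G D0 ℓ} {Vf : Extra P.g} {Vc : Extra P.g'}
    {Γ : Matrix G.V G.V ℝ} (hreg : RegStable R n0 cst δ κ P Vf Vc Γ) (X : Finset P.g.I) (φ : G.V → ℝ) :
    ∫⁻ ζ, ENNReal.ofReal (Wt P.g δ κ Vf X (φ + ζ)) ∂(gauss G Γ) ≠ ⊤ := by
  refine ne_top_of_le_ne_top ?_ (hreg.main X (P.N.cl X) subset_rfl φ)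
  exact ENNReal.mul_ne_top (ENNReal.pow_ne_top ENNReal.coe_ne_top) ENNReal.ofReal_ne_top

theorem loc_HOK {R n0 : ℕ} {cst : ℝ≥0} (p : Par) (col : ℕ) (hω : 0 < p.ω) {D0 ℓ : ℕ} (P : Pair G D0 ℓ) (Γ : Matrix G.V G.V ℝ)
    (Vf : Extra P.g) (Vc : Extra P.g') (hreg : RegStable R n0 cst p.δ p.κ P Vf Vc Γ)
    (X : Finset P.g.I) (F : Fn G) (u : ℝ≥0) (hin : LocalInput p col R n0 P.g Vf X F u) :
    HOK p.h0 P p.δ p.κ Vc X (conv Γ (chargeProj p.ω 0 F)) (u * (max 1 cst) ^ n0) := by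
  obtain ⟨hloc, hsz, hinv⟩ := charge_proj p hω col P.g Vf X F hin.fn 0
  have hsz' : fnSize p P.g Vf X (chargeProj p.ω 0 F) ≤ u := hsz.trans hin.bd
  have hfin : fnSize p P.g Vf X (chargeProj p.ω 0 F) ≠ ⊤ := ne_top_of_le_ne_top ENNReal.coe_ne_top hsz'
  refine ⟨hol_conv p P.g Vf X Γ _ hloc.hol hfin (loc_hint hreg X), fun φ d hd => ?_, fun z c hz hzc => ?_⟩
  · have h1 : (‖conv Γ (chargeProj p.ω 0 F) (toC φ + d)‖₊ : ℝ≥0∞)
        ≤ u * ((cst : ℝ≥0∞) ^ X.card * ENNReal.ofReal (Wt P.g' p.δ (p.κ / 2) Vc (P.N.cl X) φ)) := by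
      calc (‖conv Γ (chargeProj p.ω 0 F) (toC φ + d)‖₊ : ℝ≥0∞)
          ≤ ptNorm p.h0 P.g X (conv Γ (chargeProj p.ω 0 F)) φ := le_ptNorm _ _ _ _ _ _ hd
        _ ≤ ∫⁻ ζ, ptNorm p.h0 P.g X (chargeProj p.ω 0 F) (φ + ζ) ∂(gauss G Γ) := ptNorm_conv _ _ _ _ _ _
        _ ≤ ∫⁻ ζ, u * ENNReal.ofReal (Wt P.g p.δ p.κ Vf X (φ + ζ)) ∂(gauss G Γ) :=
            lintegral_mono fun ζ => (ptNorm_le_fnSize_mul p P.g Vf X _ _).trans (by gcongr)
        _ = u * ∫⁻ ζ, ENNReal.ofReal (Wt P.g p.δ p.κ Vf X (φ + ζ)) ∂(gauss G Γ) :=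
            lintegral_const_mul' _ _ ENNReal.coe_ne_top
        _ ≤ _ := by gcongr; exact hreg.small X hin.conn hin.small φ
    have hW : 0 < Wt P.g' p.δ (p.κ / 2) Vc (P.N.cl X) φ := Wt_pos _ _ _ _ _ _
    have h2 : (u : ℝ≥0∞) * ((cst : ℝ≥0∞) ^ X.card * ENNReal.ofReal (Wt P.g' p.δ (p.κ / 2) Vc (P.N.cl X) φ))
        = ENNReal.ofReal (u * (cst : ℝ) ^ X.card * Wt P.g' p.δ (p.κ / 2) Vc (P.N.cl X) φ) := by
      rw [ENNReal.ofReal_mul (by positivity), ENNReal.ofReal_mul (by positivity), ENNReal.ofReal_pow (by positivity),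
        ENNReal.ofReal_coe_nnreal, ENNReal.ofReal_coe_nnreal, mul_assoc]
    rw [h2, ← enorm_eq_nnnorm, ← ofReal_norm, ENNReal.ofReal_le_ofReal_iff (by positivity)] at h1
    refine h1.trans ?_
    have h3 : (cst : ℝ) ^ X.card ≤ (max 1 (cst : ℝ)) ^ n0 :=
      calc (cst : ℝ) ^ X.card ≤ (max 1 (cst : ℝ)) ^ X.card := by gcongr; exact le_max_right _ _
        _ ≤ (max 1 (cst : ℝ)) ^ n0 := pow_le_pow_right₀ (le_max_left _ _) hin.small
    push_cast
    gcongr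
  · unfold conv
    refine integral_congr_ae (Filter.Eventually.of_forall fun ζ => ?_)
    have h1 := hinv (z + toC ζ) c (strip_add_toC hz ζ) (by
      have : (fun v => (z + toC ζ) v + c) = (fun v => z v + c) + toC ζ := by ext v; simp; ring
      rw [this]; exact strip_add_toC hzc ζ)
    have h2 : (fun v => z v + c) + toC ζ = fun v => (z + toC ζ) v + c := by ext v; simp; ring
    simp only [h2, h1]
    simp

/-- the Gaussian measure is symmetric -/
theorem loc_gauss_neg (Γ : Matrix G.V G.V ℝ) (hΓ : Γ.PosSemidef) : (gauss G Γ).map (fun ζ => -ζ) = gauss G Γ := by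
  have h := Reg.reg_gauss_map hΓ (-1 : Matrix G.V G.V ℝ)
  have h1 : (fun ζ : G.V → ℝ => (-1 : Matrix G.V G.V ℝ).mulVec ζ) = fun ζ => -ζ := by
    ext ζ v; simp [Matrix.neg_mulVec]
  have h2 : (-1 : Matrix G.V G.V ℝ) * Γ * (-1 : Matrix G.V G.V ℝ).transpose = Γ := by simp
  rw [h1, h2] at h
  exact h

theorem loc_strip_neg {h : ℝ≥0} {g : Grid G} {X : Finset g.I} {z : G.V → ℂ} (hz : z ∈ strip h g X) : -z ∈ strip h g X := by
  rw [mem_strip] at hz ⊢
  have : (fun v => ((-z) v).im) = -(fun v => (z v).im) := by ext v; simp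
  rw [this, tnorm_neg]; exact hz

/-- the neutral projection of an even function is even -/
theorem loc_proj_even (p : Par) (col : ℕ) (g : Grid G) (X : Finset g.I) (F : Fn G) (hF : LocalFn p col g X F)
    (hev : ∀ ψ ∈ strip p.h0 g X, F (-ψ) = F ψ) (z : G.V → ℂ) (hz : z ∈ strip p.h0 g X) :
    chargeProj p.ω 0 F (-z) = chargeProj p.ω 0 F z := by
  have hK : ∀ t : ℂ, chK p.ω 0 t = 1 := fun t => by simp [chK]
  rw [chargeProj_eq, chargeProj_eq]
  congr 1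
  simp only [hK, one_mul]
  have h1 : ∀ t : ℝ, (F fun v => (-z) v + (t : ℂ)) = (fun s : ℝ => F fun v => z v + (s : ℂ)) (-t) := by
    intro t
    have h2 : (fun v => (-z) v + (t : ℂ)) = -(fun v => z v + ((-t : ℝ) : ℂ)) := by
      ext v; simp; ring
    rw [h2]
    exact hev _ (strip_add_real hz (-t))
  simp only [h1]
  rw [intervalIntegral.integral_comp_neg (fun s : ℝ => F fun v => z v + (s : ℂ))]
  have h3 := (line_periodic p col g X F hF hz).intervalIntegral_add_eq (-p.ω) 0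
  simpa using h3

theorem loc_Heven (p : Par) (col : ℕ) (g : Grid G) (X : Finset g.I) (F : Fn G) (hF : LocalFn p col g X F)
    (Γ : Matrix G.V G.V ℝ) (hΓ : Γ.PosSemidef) (hev : ∀ ψ ∈ strip p.h0 g X, F (-ψ) = F ψ) (z : G.V → ℂ) (hz : z ∈ strip p.h0 g X) :
    conv Γ (chargeProj p.ω 0 F) (-z) = conv Γ (chargeProj p.ω 0 F) z := by
  unfold conv
  have hm : Measurable fun ζ : G.V → ℝ => -ζ := measurable_neg
  have h1 : ∫ ζ, chargeProj p.ω 0 F (-z + toC ζ) ∂(gauss G Γ)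
      = ∫ ζ, chargeProj p.ω 0 F (-z + toC (-ζ)) ∂(gauss G Γ) := by
    conv_lhs => rw [← loc_gauss_neg Γ hΓ]
    exact integral_map_equiv (MeasurableEquiv.neg (G.V → ℝ)) (fun ζ => chargeProj p.ω 0 F (-z + toC ζ))
  rw [h1]
  refine integral_congr_ae (Filter.Eventually.of_forall fun ζ => ?_)
  have h2 : -z + toC (-ζ) = -(z + toC ζ) := by ext v; simp [toC]; ring
  simp only [h2]
  exact loc_proj_even p col g X F hF hev _ (strip_add_toC hz ζ)

end

end Claimed.Agent.R285.Loc
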