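import Claimed.Agent.R285.Hol.An

/-!
# ROW 285, package PK-LOC ([B] Lemma 4.5), file 2: the second derivative of a holomorphic function of finitely many variables      (owner helper276)

`iteratedFDeriv ℂ 2 H 0` is bilinear by its type.  Here: identification with the second derivative along a complex line (`loc_line_deriv2`), the Cauchy bound in two
complex variables (`loc_d2_bound`), and the two algebraic identities used for the quadratic localisation.  Uses `Hol.hol_fderiv`.
-/

set_option autoImplicit false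

namespace Claimed.Agent.R285.Loc

open Metric Filter Topology

variable {E : Type} [NormedAddCommGroup E] [NormedSpace ℂ E]

theorem loc_line_hasDerivAt {W : Type} [NormedAddCommGroup W] [NormedSpace ℂ W] {H : E → W} {z w : E} {s : ℂ}
    (hH : DifferentiableAt ℂ H (z + s • w)) :
    HasDerivAt (fun t : ℂ => H (z + t • w)) (fderiv ℂ H (z + s • w) w) s :=
  Hol.line_hasDerivAt hH

variable [FiniteDimensional ℂ E]

/-- the second derivative along a complex line through `0` -/
theorem loc_line_deriv2 {H : E → ℂ} {U : Set E} (hU : IsOpen U) (h0 : (0 : E) ∈ U) (hH : DifferentiableOn ℂ H U) (w : E) :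
    iteratedDeriv 2 (fun s : ℂ => H (s • w)) 0 = iteratedFDeriv ℂ 2 H 0 ![w, w] := by
  have hcont : Continuous fun s : ℂ => s • w := by fun_prop
  have hnear : ∀ᶠ s : ℂ in 𝓝 0, s • w ∈ U :=
    hcont.continuousAt.eventually_mem (by simpa using hU.mem_nhds h0)
  have h1 : deriv (fun s : ℂ => H (s • w)) =ᶠ[𝓝 0] fun s : ℂ => fderiv ℂ H (s • w) w := by
    filter_upwards [hnear] with s hs
    have := loc_line_hasDerivAt (H := H) (z := 0) (w := w) (s := s)
      (by simpa using (hH _ hs).differentiableAt (hU.mem_nhds hs))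
    simpa using this.deriv
  have hD := Hol.hol_fderiv U hU H hH
  have h2 : HasDerivAt (fun s : ℂ => fderiv ℂ H (s • w)) (fderiv ℂ (fderiv ℂ H) 0 w) 0 := by
    have := loc_line_hasDerivAt (H := fderiv ℂ H) (z := 0) (w := w) (s := 0)
      (by simpa using (hD _ h0).differentiableAt (hU.mem_nhds h0))
    simpa using this
  have h3 : HasDerivAt (fun s : ℂ => fderiv ℂ H (s • w) w) (fderiv ℂ (fderiv ℂ H) 0 w w) 0 := by
    have := h2.clm_apply (hasDerivAt_const (0 : ℂ) w)
    simpa using this
  rw [iteratedDeriv_succ, iteratedDeriv_one, h1.deriv_eq, h3.deriv, iteratedFDeriv_two_apply]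
  simp

/-- Cauchy estimate for the mixed second derivative at `0` -/
theorem loc_d2_bound {H : E → ℂ} {U : Set E} (hU : IsOpen U) (hH : DifferentiableOn ℂ H U) (a b : E) {ρa ρb M : ℝ}
    (hρa : 0 < ρa) (hρb : 0 < ρb)
    (hin : ∀ s t : ℂ, ‖s‖ ≤ ρa → ‖t‖ ≤ ρb → s • a + t • b ∈ U ∧ ‖H (s • a + t • b)‖ ≤ M) :
    ‖iteratedFDeriv ℂ 2 H 0 ![a, b]‖ ≤ M / (ρa * ρb) := by
  have h0 : (0 : E) ∈ U := by simpa using (hin 0 0 (by simpa using hρa.le) (by simpa using hρb.le)).1
  have hD := Hol.hol_fderiv U hU H hH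
  -- the inner Cauchy estimate
  have hinner : ∀ s : ℂ, ‖s‖ ≤ ρa → ‖fderiv ℂ H (s • a) b‖ ≤ M / ρb := by
    intro s hs
    have hd : DifferentiableOn ℂ (fun t : ℂ => H (s • a + t • b)) (closedBall 0 ρb) := fun t ht =>
      (loc_line_hasDerivAt ((hH _ (hin s t hs (mem_closedBall_zero_iff.1 ht)).1).differentiableAt
        (hU.mem_nhds (hin s t hs (mem_closedBall_zero_iff.1 ht)).1))).differentiableAt.differentiableWithinAt
    have h1 := Complex.norm_deriv_le_of_forall_mem_sphere_norm_le hρb (hd.diffContOnCl_ball subset_rfl)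
      (C := M) (fun t ht => (hin s t hs (mem_closedBall_zero_iff.1 (sphere_subset_closedBall ht))).2)
    have hsa : s • a ∈ U := by simpa using (hin s 0 hs (by simpa using hρb.le)).1
    have h2 : deriv (fun t : ℂ => H (s • a + t • b)) 0 = fderiv ℂ H (s • a) b := by
      have := loc_line_hasDerivAt (H := H) (z := s • a) (w := b) (s := 0)
        (by simpa using (hH _ hsa).differentiableAt (hU.mem_nhds hsa))
      simpa using this.deriv
    rwa [h2] at h1
  -- the outer Cauchy estimate
  have hsaU : ∀ s : ℂ, ‖s‖ ≤ ρa → s • a ∈ U := fun s hs => by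
    simpa using (hin s 0 hs (by simpa using hρb.le)).1
  have hder : ∀ s : ℂ, ‖s‖ ≤ ρa →
      HasDerivAt (fun s : ℂ => fderiv ℂ H (s • a) b) (fderiv ℂ (fderiv ℂ H) (s • a) a b) s := by
    intro s hs
    have h2 : HasDerivAt (fun s : ℂ => fderiv ℂ H (s • a)) (fderiv ℂ (fderiv ℂ H) (s • a) a) s := by
      have := loc_line_hasDerivAt (H := fderiv ℂ H) (z := 0) (w := a) (s := s)
        (by simpa using (hD _ (hsaU s hs)).differentiableAt (hU.mem_nhds (hsaU s hs)))
      simpa using this
    have := h2.clm_apply (hasDerivAt_const s b)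
    simpa using this
  have hd2 : DifferentiableOn ℂ (fun s : ℂ => fderiv ℂ H (s • a) b) (closedBall 0 ρa) := fun s hs =>
    (hder s (mem_closedBall_zero_iff.1 hs)).differentiableAt.differentiableWithinAt
  have h3 := Complex.norm_deriv_le_of_forall_mem_sphere_norm_le hρa (hd2.diffContOnCl_ball subset_rfl)
    (C := M / ρb) (fun s hs => hinner s (mem_closedBall_zero_iff.1 (sphere_subset_closedBall hs)))
  have h4 := (hder 0 (by simpa using hρa.le)).deriv
  rw [h4] at h3
  rw [iteratedFDeriv_two_apply]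
  simp only [zero_smul] at h3
  calc ‖fderiv ℂ (fderiv ℂ H) 0 (![a, b] 0) (![a, b] 1)‖ = ‖fderiv ℂ (fderiv ℂ H) 0 a b‖ := by simp
    _ ≤ M / ρb / ρa := h3
    _ = M / (ρa * ρb) := by rw [div_div, mul_comm]

omit [FiniteDimensional ℂ E] in
/-- the second derivative as a bilinear map -/
theorem loc_d2_eq (H : E → ℂ) (a b : E) : iteratedFDeriv ℂ 2 H 0 ![a, b] = fderiv ℂ (fderiv ℂ H) 0 a b := by
  rw [iteratedFDeriv_two_apply]; simp

omit [FiniteDimensional ℂ E] in
theorem loc_bil_sub (B : E →L[ℂ] E →L[ℂ] ℂ) (a b : E) : B a a - B b b = B (a - b) a + B b (a - b) := by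
  simp only [map_sub, sub_apply]; ring

omit [FiniteDimensional ℂ E] in
theorem loc_bil_sum (B : E →L[ℂ] E →L[ℂ] ℂ) (p : Fin 2 → ℂ) (l : Fin 2 → E) :
    B (∑ i, p i • l i) (∑ j, p j • l j) = ∑ i, ∑ j, p i * B (l i) (l j) * p j := by
  simp only [Fin.sum_univ_two, map_add, map_smul, add_apply, smul_apply, smul_eq_mul]
  ring

end Claimed.Agent.R285.Loc
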