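import Claimed.Agent.R285.Loc.Disc
import Claimed.Agent.R285.Loc.Multi
import Claimed.Agent.R285.Loc.HProp
import Claimed.Agent.R285.Loc.Dn

/-!
# ROW 285, package PK-LOC ([B] Lemma 4.5), file 5: the analytic core      (owner helper276)

From `HOK` only: Taylor remainders of `H` along the complex line `s ↦ s w̃` (`loc_taylor`), the Cauchy bound of `D²H(0)` in the fine test norm (`loc_d2`),
and the elementary inequality `(1 + a √t)^r ≤ e^{(ra)²/(2κ)} e^{κ t / 2}`.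
-/

set_option autoImplicit false

namespace Claimed.Agent.R285.Loc

open scoped BigOperators ENNReal NNReal
open MeasureTheory Metric
open Claimed.Agent.R285.RG Claimed.Agent.R285.Hol

noncomputable section

variable {G : Geom}

theorem loc_nab_zero (r : ℕ) (x : ℤ × ℤ) : nab r (G.lift (0 : G.V → ℝ)) x = 0 := by
  unfold nab
  refine le_antisymm (Finset.sup_le fun a _ => ?_) zero_le
  have h := difs_nnnorm_le a (G.lift (0 : G.V → ℝ)) 0 (fun y => by simp [Geom.lift]) x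
  simpa using h

theorem loc_U_zero (g : Grid G) (δ : ℝ) (X : Finset g.I) : U g δ X 0 = 0 := by
  have h1 : ∀ (e : Fin 4) (x : ℤ × ℤ), dif (dir e) (G.lift (0 : G.V → ℝ)) x = 0 := fun e x => by simp [dif, Geom.lift]
  unfold U gE PE TE
  have h2 : ∀ x : g.I, ((g.sites {x}).sup fun _ : G.V => (0 : ℝ≥0)) = 0 := fun x =>
    le_antisymm (Finset.sup_le fun _ _ => le_rfl) zero_le
  simp [h1, loc_nab_zero, h2]

theorem loc_Wt_zero (g : Grid G) (δ κ : ℝ) (V : Extra g) (X : Finset g.I) : Wt g δ κ V X 0 = 1 := by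
  have h := V.homog X 0 0
  unfold Wt
  rw [loc_U_zero]
  simp at h
  simp [h]

variable {h0 : ℝ≥0} {D0 ℓ : ℕ} {P : Pair G D0 ℓ} {δ κ : ℝ} {Vc : Extra P.g'} {X : Finset P.g.I} {H : Fn G} {M : ℝ}

/-- the bound at the zero field -/
theorem HOK.bd0 (hH : HOK h0 P δ κ Vc X H M) (d : G.V → ℂ) (hd : tnorm P.g X d < h0) : ‖H d‖ ≤ M := by
  have h := hH.bd 0 d hd
  rwa [loc_Wt_zero, mul_one, toC_zero, zero_add] at h

theorem loc_mem_strip_of_tnorm {g : Grid G} {X : Finset g.I} {d : G.V → ℂ} (hd : tnorm g X d < h0) : d ∈ strip h0 g X := by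
  have := toC_add_mem_strip (h := h0) (g := g) (X := X) 0 hd
  rwa [toC_zero, zero_add] at this

/-- **Taylor remainders along a complex line.**  `A` bounds the fine norm of `w`. -/
theorem loc_taylor (hH : HOK h0 P δ κ Vc X H M) (hh : 0 < h0) (w : G.V → ℂ) {A M1 : ℝ} (hA : 0 < A) (hw : (tnorm P.g X w : ℝ) ≤ A)
    (h1 : ‖H w‖ ≤ M1) (hM : M ≤ M1) (r : ℕ) :
    ‖H w - ∑ k ∈ Finset.range r, ((k.factorial : ℂ))⁻¹ * iteratedDeriv k (fun s : ℂ => H (s • w)) 0‖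
      ≤ (r + 2) * M1 * (4 * A / h0) ^ r := by
  have hh' : (0 : ℝ) < h0 := by exact_mod_cast hh
  have hρ : 0 < (h0 : ℝ) / A := by positivity
  have hin : ∀ s ∈ ball (0 : ℂ) ((h0 : ℝ) / A), tnorm P.g X (s • w) < h0 := by
    intro s hs
    rw [mem_ball_zero_iff, lt_div_iff₀ hA] at hs
    rw [tnorm_smul, ← NNReal.coe_lt_coe]
    push_cast
    calc ‖s‖ * (tnorm P.g X w : ℝ) ≤ ‖s‖ * A := by gcongr
      _ < h0 := hs
  have hd : DifferentiableOn ℂ (fun s : ℂ => H (s • w)) (ball 0 ((h0 : ℝ) / A)) :=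
    hH.hol.comp (by fun_prop) fun s hs => loc_mem_strip_of_tnorm (hin s hs)
  have := loc_disc (h := fun s : ℂ => H (s • w)) hρ hd (fun s hs => hH.bd0 _ (hin s hs)) (M' := M1) (by simpa using h1) hM r
  simp only [one_smul] at this
  have e : 4 / ((h0 : ℝ) / A) = 4 * A / h0 := by field_simp
  rwa [e] at this

/-- **Cauchy bound of the second derivative at the zero field.** -/
theorem loc_d2 (hH : HOK h0 P δ κ Vc X H M) (hh : 0 < h0) (a b : G.V → ℂ) {A B : ℝ} (hA : 0 < A) (hB : 0 < B)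
    (ha : (tnorm P.g X a : ℝ) ≤ A) (hb : (tnorm P.g X b : ℝ) ≤ B) :
    ‖iteratedFDeriv ℂ 2 H 0 ![a, b]‖ ≤ 9 * M * A * B / (h0 : ℝ) ^ 2 := by
  have hh' : (0 : ℝ) < h0 := by exact_mod_cast hh
  have hin : ∀ s t : ℂ, ‖s‖ ≤ (h0 : ℝ) / (3 * A) → ‖t‖ ≤ (h0 : ℝ) / (3 * B) → tnorm P.g X (s • a + t • b) < h0 := by
    intro s t hs ht
    refine (tnorm_add_le _ _ _ _).trans_lt ?_
    rw [tnorm_smul, tnorm_smul, ← NNReal.coe_lt_coe]
    push_cast
    have h1 : ‖s‖ * (tnorm P.g X a : ℝ) ≤ (h0 : ℝ) / 3 :=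
      calc ‖s‖ * (tnorm P.g X a : ℝ) ≤ (h0 : ℝ) / (3 * A) * A := by gcongr
        _ = (h0 : ℝ) / 3 := by field_simp
    have h2 : ‖t‖ * (tnorm P.g X b : ℝ) ≤ (h0 : ℝ) / 3 :=
      calc ‖t‖ * (tnorm P.g X b : ℝ) ≤ (h0 : ℝ) / (3 * B) * B := by gcongr
        _ = (h0 : ℝ) / 3 := by field_simp
    linarith
  have := loc_d2_bound (strip_isOpen h0 P.g X) hH.hol a b (ρa := (h0 : ℝ) / (3 * A)) (ρb := (h0 : ℝ) / (3 * B)) (M := M)
    (by positivity) (by positivity)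
    (fun s t hs ht => ⟨loc_mem_strip_of_tnorm (hin s t hs ht), hH.bd0 _ (hin s t hs ht)⟩)
  refine this.trans (le_of_eq ?_)
  field_simp
  ring

/-- `(1 + a √t)^r ≤ e^{(ra)²/(2κ)} e^{κ t / 2}` -/
theorem loc_poly_exp {a κ t : ℝ} (ha : 0 ≤ a) (hκ : 0 < κ) (ht : 0 ≤ t) (r : ℕ) :
    (1 + a * Real.sqrt t) ^ r ≤ Real.exp ((r * a) ^ 2 / (2 * κ)) * Real.exp (κ * t / 2) := by
  have h1 : 1 + a * Real.sqrt t ≤ Real.exp (a * Real.sqrt t) := by
    have := Real.add_one_le_exp (a * Real.sqrt t); linarith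
  have h2 : (1 + a * Real.sqrt t) ^ r ≤ Real.exp (r * (a * Real.sqrt t)) := by
    rw [Real.exp_nat_mul]
    exact pow_le_pow_left₀ (by positivity) h1 r
  refine h2.trans ?_
  rw [← Real.exp_add]
  apply Real.exp_le_exp.2
  have hs : Real.sqrt t ^ 2 = t := Real.sq_sqrt ht
  have key : 0 ≤ (r * a - κ * Real.sqrt t) ^ 2 := sq_nonneg _
  have : r * (a * Real.sqrt t) * (2 * κ) ≤ (r * a) ^ 2 + κ * t / 2 * (2 * κ) := by
    have e : (r * a - κ * Real.sqrt t) ^ 2 = (r * a) ^ 2 - r * (a * Real.sqrt t) * (2 * κ) + κ ^ 2 * Real.sqrt t ^ 2 := by ring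
    rw [e, hs] at key
    nlinarith
  have h3 : (r * a) ^ 2 / (2 * κ) + κ * t / 2 = ((r * a) ^ 2 + κ * t / 2 * (2 * κ)) / (2 * κ) := by field_simp
  rw [h3, le_div_iff₀ (by positivity)]
  exact this

end

end Claimed.Agent.R285.Loc
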