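import Mathlib

/-!
# ROW 285, package PK-LOC ([B] Lemma 4.5), file 1: Taylor remainders in a disc      (owner helper276)

One complex variable, Mathlib only.  `h` is holomorphic and bounded by `M` in the disc `|s| < ρ`, and `|h 1| ≤ M'`, `M ≤ M'` (`1` need NOT lie in the disc).
Then `|h 1 - ∑_{k<r} h^{(k)}(0)/k!| ≤ (r + 2) M' (4/ρ)^r`.
(`ρ ≤ 4`: every term is bounded separately; `ρ > 4`: the tail of the Taylor series.)  This replaces Taylor's formula on the real segment in the proof of L4.5: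
the disc is centred at the ZERO field, where the regulator is `1`; the large-field region is paid by `(4/ρ)^r ≥ 1`.
-/

set_option autoImplicit false

namespace Claimed.Agent.R285.Loc

open Metric Filter Topology

/-- Cauchy estimate for the Taylor coefficients (circle of radius `ρ/2`) -/
theorem loc_coeff_le {h : ℂ → ℂ} {ρ M : ℝ} (hρ : 0 < ρ) (hd : DifferentiableOn ℂ h (ball 0 ρ))
    (hM : ∀ s ∈ ball (0 : ℂ) ρ, ‖h s‖ ≤ M) (k : ℕ) :
    ‖((k.factorial : ℂ))⁻¹ * iteratedDeriv k h 0‖ ≤ M * (2 / ρ) ^ k := by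
  have hρ2 : 0 < ρ / 2 := by positivity
  have hsub : closedBall (0 : ℂ) (ρ / 2) ⊆ ball 0 ρ := closedBall_subset_ball (by linarith)
  have h1 := Complex.norm_iteratedDeriv_le_of_forall_mem_sphere_norm_le k hρ2
    ((hd.mono hsub).diffContOnCl_ball subset_rfl) (C := M)
    (fun z hz => hM z (hsub (sphere_subset_closedBall hz)))
  have hk : (0 : ℝ) < k.factorial := by exact_mod_cast k.factorial_pos
  rw [norm_mul, norm_inv, Complex.norm_natCast]
  calc ((k.factorial : ℝ))⁻¹ * ‖iteratedDeriv k h 0‖ ≤ ((k.factorial : ℝ))⁻¹ * (k.factorial * M / (ρ / 2) ^ k) := by gcongr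
    _ = M * (2 / ρ) ^ k := by
      rw [div_pow, div_pow]; field_simp

theorem loc_disc {h : ℂ → ℂ} {ρ M M' : ℝ} (hρ : 0 < ρ) (hd : DifferentiableOn ℂ h (ball 0 ρ))
    (hM : ∀ s ∈ ball (0 : ℂ) ρ, ‖h s‖ ≤ M) (h1 : ‖h 1‖ ≤ M') (hMM : M ≤ M') (r : ℕ) :
    ‖h 1 - ∑ k ∈ Finset.range r, ((k.factorial : ℂ))⁻¹ * iteratedDeriv k h 0‖ ≤ (r + 2) * M' * (4 / ρ) ^ r := by
  have hM0 : 0 ≤ M := (norm_nonneg _).trans (hM 0 (mem_ball_self hρ))
  have hM'0 : 0 ≤ M' := hM0.trans hMM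
  have hc := loc_coeff_le hρ hd hM
  rcases le_or_gt ρ 4 with h4 | h4
  · -- every term separately
    have hq : 1 ≤ 4 / ρ := by rw [le_div_iff₀ hρ]; linarith
    have hterm : ∀ k ∈ Finset.range r, ‖((k.factorial : ℂ))⁻¹ * iteratedDeriv k h 0‖ ≤ M' * (4 / ρ) ^ r := by
      intro k hk
      have hk' : k ≤ r := (Finset.mem_range.1 hk).le
      calc ‖((k.factorial : ℂ))⁻¹ * iteratedDeriv k h 0‖ ≤ M * (2 / ρ) ^ k := hc k
        _ ≤ M' * (4 / ρ) ^ k := by gcongr; norm_num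
        _ ≤ M' * (4 / ρ) ^ r := by gcongr
    calc ‖h 1 - ∑ k ∈ Finset.range r, ((k.factorial : ℂ))⁻¹ * iteratedDeriv k h 0‖
        ≤ ‖h 1‖ + ‖∑ k ∈ Finset.range r, ((k.factorial : ℂ))⁻¹ * iteratedDeriv k h 0‖ := norm_sub_le _ _
      _ ≤ M' * (4 / ρ) ^ r + ∑ k ∈ Finset.range r, M' * (4 / ρ) ^ r := by
          refine add_le_add ?_ ((norm_sum_le _ _).trans (Finset.sum_le_sum hterm))
          calc ‖h 1‖ ≤ M' * 1 := by simpa using h1
            _ ≤ M' * (4 / ρ) ^ r := by gcongr; exact one_le_pow₀ hq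
      _ = (r + 1) * M' * (4 / ρ) ^ r := by
          rw [Finset.sum_const, Finset.card_range, nsmul_eq_mul]; ring
      _ ≤ (r + 2) * M' * (4 / ρ) ^ r := by
          have : 0 ≤ M' * (4 / ρ) ^ r := by positivity
          nlinarith
  · -- tail of the Taylor series
    have h1m : (1 : ℂ) ∈ ball (0 : ℂ) ρ := by
      rw [mem_ball_zero_iff]; simp; linarith
    have hs := Complex.hasSum_taylorSeries_on_ball hd h1m
    have hs' : HasSum (fun n : ℕ => ((n.factorial : ℂ))⁻¹ * iteratedDeriv n h 0) (h 1) := by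
      simpa using hs
    have hq0 : 0 ≤ 2 / ρ := by positivity
    have hq1 : 2 / ρ < 1 / 2 := by rw [div_lt_iff₀ hρ]; linarith
    have htail := (hasSum_nat_add_iff' r).2 hs'
    have hgeo : HasSum (fun n : ℕ => M * (2 / ρ) ^ (n + r)) (M * ((2 / ρ) ^ r * (1 - 2 / ρ)⁻¹)) := by
      have := (hasSum_geometric_of_lt_one hq0 (by linarith)).mul_left ((2 / ρ) ^ r)
      have h2 := this.mul_left M
      refine h2.congr_fun ?_ |>.trans_eq rfl |> fun h => h
      intro n; rw [pow_add]; ring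
    have hle : ‖h 1 - ∑ k ∈ Finset.range r, ((k.factorial : ℂ))⁻¹ * iteratedDeriv k h 0‖
        ≤ M * ((2 / ρ) ^ r * (1 - 2 / ρ)⁻¹) := by
      rw [← htail.tsum_eq]
      exact tsum_of_norm_bounded hgeo fun n => hc (n + r)
    have hinv : (1 - 2 / ρ)⁻¹ ≤ 2 := by
      rw [inv_le_comm₀ (by linarith) (by norm_num)]; linarith
    calc ‖h 1 - ∑ k ∈ Finset.range r, ((k.factorial : ℂ))⁻¹ * iteratedDeriv k h 0‖
        ≤ M * ((2 / ρ) ^ r * (1 - 2 / ρ)⁻¹) := hle
      _ ≤ M' * ((4 / ρ) ^ r * 2) := by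
          have hp : 0 ≤ (1 - 2 / ρ)⁻¹ := inv_nonneg.2 (by linarith)
          have h24 : (2 / ρ) ^ r ≤ (4 / ρ) ^ r := by gcongr; norm_num
          have h5 : (2 / ρ) ^ r * (1 - 2 / ρ)⁻¹ ≤ (4 / ρ) ^ r * 2 := mul_le_mul h24 hinv hp (by positivity)
          exact mul_le_mul hMM h5 (by positivity) hM'0
      _ ≤ (r + 2) * M' * (4 / ρ) ^ r := by
          have : 0 ≤ M' * (4 / ρ) ^ r := by positivity
          nlinarith

/-- odd Taylor coefficients of a locally even function vanish -/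
theorem loc_odd_zero {h : ℂ → ℂ} {ρ : ℝ} (hρ : 0 < ρ) (hev : ∀ s ∈ ball (0 : ℂ) ρ, h (-s) = h s) (k : ℕ) (hk : Odd k) :
    iteratedDeriv k h 0 = 0 := by
  have h1 : (fun s => h (-s)) =ᶠ[𝓝 (0 : ℂ)] h := by
    filter_upwards [ball_mem_nhds (0 : ℂ) hρ] with s hs using hev s hs
  have h2 := h1.iteratedDeriv_eq k
  rw [iteratedDeriv_comp_neg, neg_zero, hk.neg_one_pow] at h2
  have h3 : (2 : ℂ) * iteratedDeriv k h 0 = 0 := by
    have : -iteratedDeriv k h 0 = iteratedDeriv k h 0 := by simpa using h2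
    linear_combination -this
  simpa using h3

end Claimed.Agent.R285.Loc
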