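import Claimed.Agent.R285.Loc.Dn
import Claimed.Agent.R285.Hol.Sz
import Claimed.Agent.R285.Reg.En

/-!
# ROW 285, package PK-LOC ([B] Lemma 4.5), file 9a: `dnorm ≤ 6 √U` ((rg:gradient-sup)) and the cardinality of bulk polymers      (owner helper276)
-/

set_option autoImplicit false

namespace Claimed.Agent.R285.Loc

open scoped BigOperators ENNReal NNReal
open Claimed.Agent.R285.RG Claimed.Agent.R285.Hol Claimed.Agent.R285.Reg

noncomputable section

variable {G : Geom}

theorem loc_le_six_sqrt {x t : ℝ} (_hx : 0 ≤ x) (h : x ^ 2 ≤ 36 * t) : x ≤ 6 * Real.sqrt t := by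
  have e : 6 * Real.sqrt t = Real.sqrt (36 * t) := by
    rw [Real.sqrt_mul (by norm_num)]
    congr 1
    rw [show (36 : ℝ) = 6 ^ 2 by norm_num, Real.sqrt_sq (by norm_num)]
  rw [e]
  exact Real.le_sqrt_of_sq_le h

/-- [B] (rg:gradient-sup) -/
theorem loc_sobolev (g : Grid G) (hg : g.Ok) {δ : ℝ} (hδ : 0 ≤ δ) (Y : Finset g.I) (ψ : G.V → ℝ) :
    (dnorm g Y ψ : ℝ) ≤ 6 * Real.sqrt (U g δ Y ψ) := by
  set t := U g δ Y ψ with ht
  have ht0 : 0 ≤ t := U_nonneg g hδ Y ψ
  have hgE : 0 ≤ gE G (g.Dm Y) ψ := gE_nonneg _ _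
  have hTE : 0 ≤ TE g (g.collar Y) ψ := TE_nonneg _ _ _
  have hsum : gE G (g.Dm Y) ψ + TE g (g.collar Y) ψ ≤ t := by
    have := PE_nonneg (G := G) g.m (g.Dm Y) ψ
    rw [ht]; unfold U
    nlinarith
  have key : dnorm g Y ψ ≤ Real.toNNReal (6 * Real.sqrt t) := by
    rw [dnorm_le_iff]
    intro v hv
    set b := g.blk v with hb
    have hbc : b ∈ g.collar Y := (reg_mem_Dm g Y v).1 hv
    have hvb : v ∈ g.sites {b} := (reg_mem_sites g {b} v).2 (by simp [hb])
    have hsub : g.sites {b} ⊆ g.Dm Y := sites_mono g (by simpa using hbc)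
    have hN : (g.m : ℝ) ^ 4 * regN2 g b ψ ^ 2 ≤ TE g (g.collar Y) ψ := by
      rw [reg_TE_eq]
      exact Finset.single_le_sum (f := fun b => (g.m : ℝ) ^ 4 * regN2 g b ψ ^ 2) (fun b _ => by positivity) hbc
    refine ⟨fun a => ?_, fun a => ?_⟩
    · rw [difs_one]
      set e := a 0
      have h1 := reg_gradsup g hg b (dif (dir e) (G.lift ψ)) (K := regN2 g b ψ)
        (fun v hv e' => reg_d2_le_n2 g b ψ hv e' e) hvb
      have h2 : ∑ w ∈ g.sites {b}, dif (dir e) (G.lift ψ) (G.ι w) ^ 2 ≤ 2 * gE G (g.Dm Y) ψ := by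
        unfold gE
        rw [← mul_assoc]; norm_num
        calc ∑ w ∈ g.sites {b}, dif (dir e) (G.lift ψ) (G.ι w) ^ 2
            ≤ ∑ w ∈ g.Dm Y, dif (dir e) (G.lift ψ) (G.ι w) ^ 2 :=
              Finset.sum_le_sum_of_subset_of_nonneg hsub fun _ _ _ => sq_nonneg _
          _ ≤ _ := Finset.sum_le_sum fun w _ =>
              Finset.single_le_sum (f := fun e => dif (dir e) (G.lift ψ) (G.ι w) ^ 2) (fun _ _ => sq_nonneg _)
                (Finset.mem_univ e)
      refine NNReal.coe_le_coe.1 ?_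
      rw [Real.coe_toNNReal _ (by positivity)]
      push_cast
      refine loc_le_six_sqrt (by positivity) ?_
      rw [mul_pow, Real.norm_eq_abs, sq_abs]
      nlinarith
    · have ha : a = ![a 0, a 1] := by funext i; fin_cases i <;> rfl
      rw [ha, regl_difs_two]
      have h1 := reg_d2_le_n2 g b ψ hvb (a 0) (a 1)
      refine NNReal.coe_le_coe.1 ?_
      rw [Real.coe_toNNReal _ (by positivity)]
      push_cast
      refine loc_le_six_sqrt (by positivity) ?_
      rw [mul_pow, Real.norm_eq_abs]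
      have h2 : |dif (dir (a 0)) (dif (dir (a 1)) (G.lift ψ)) (G.ι v)| ^ 2 ≤ regN2 g b ψ ^ 2 :=
        pow_le_pow_left₀ (abs_nonneg _) h1 2
      have h3 : ((g.m : ℝ) ^ 2) ^ 2 * |dif (dir (a 0)) (dif (dir (a 1)) (G.lift ψ)) (G.ι v)| ^ 2
          ≤ (g.m : ℝ) ^ 4 * regN2 g b ψ ^ 2 := by
        rw [← pow_mul]; gcongr
      nlinarith
  have := NNReal.coe_le_coe.2 key
  rwa [Real.coe_toNNReal _ (by positivity)] at this

/-- a block is the product of two fibres -/
theorem loc_block_card (g : Grid G) (b : g.I) :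
    (g.sites {b}).card = (Finset.univ.filter fun i => g.blk1 i = b.1).card * (Finset.univ.filter fun i => g.blk1 i = b.2).card := by
  rw [← Finset.card_product]
  congr 1
  ext v
  simp only [Grid.sites, Grid.blk, Finset.mem_filter, Finset.mem_univ, true_and, Finset.mem_singleton, Finset.mem_product]
  exact Prod.ext_iff

/-- full blocks -/
theorem loc_card (g : Grid G) (hg : g.Ok) (X : Finset g.I) (hB : g.Bulk X) : (g.sites X).card = X.card * g.m ^ 2 := by
  have h1 : ∀ b ∈ X, (g.sites {b}).card = g.m ^ 2 := by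
    intro b hb
    have hf : ∀ c : Fin g.n, (G.bc = BC.per ∨ (3 ≤ (c : ℕ) ∧ (c : ℕ) + 4 ≤ g.n)) →
        (Finset.univ.filter fun i => g.blk1 i = c).card = g.m := by
      intro c hc
      refine hg.full c ?_
      rcases hc with h | h
      · exact Or.inl h
      · exact Or.inr ⟨by omega, by omega⟩
    rw [loc_block_card, sq]
    rcases hB with h | h
    · rw [hf _ (Or.inl h), hf _ (Or.inl h)]
    · obtain ⟨a1, a2, a3, a4⟩ := h b hb
      rw [hf _ (Or.inr ⟨a1, a2⟩), hf _ (Or.inr ⟨a3, a4⟩)]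
  have h2 := reg_sites_sum g X (fun _ => 1)
  simp only [Finset.sum_const, smul_eq_mul, mul_one] at h2
  rw [h2, Finset.sum_congr rfl h1, Finset.sum_const, smul_eq_mul]

end

end Claimed.Agent.R285.Loc
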