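import Claimed.Agent.R285.Loc.GeoC
import Claimed.Agent.R285.Loc.Sob

/-!
# ROW 285, package PK-LOC ([B] Lemma 4.5), file 9: the geometric export `loc_geo`      (owner helper276)
(`loc_sobolev`, `loc_card` are in `Loc/Sob.lean`.)
-/

set_option autoImplicit false

namespace Claimed.Agent.R285.Loc

open scoped BigOperators ENNReal NNReal
open Claimed.Agent.R285.RG Claimed.Agent.R285.Hol

noncomputable section

/-- [B] (rg:fine-radius) and the affine approximation, for complex fields, in terms of the derivative part of the COARSE norm -/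
theorem loc_geo (R n0 : ℕ) : ∃ (Cg : ℝ≥0) (ℓ0 D1 : ℕ), ∀ D0 ≥ D1, ∀ (G : Geom) (ℓ : ℕ), ℓ0 ≤ ℓ → ∀ (P : Pair G D0 ℓ) (X : Finset P.g.I),
    P.g.Conn R X → X.card ≤ n0 → ∀ v0 ∈ P.g.sites X,
      (∀ w : G.V → ℂ, (2 ^ ℓ : ℝ≥0) * tnorm P.g X (fun x => w x - w v0) ≤ Cg * dnorm P.g' (P.N.cl X) w) ∧
      (P.g.Bulk X →
        (∀ i, tnorm P.g X (ell P.g v0 i) ≤ Cg) ∧
        ∀ v ∈ P.g.sites X, ∀ (ε : Fin 2 → Bool) (w : G.V → ℂ),
          (2 ^ ℓ : ℝ≥0) ^ 2 * tnorm P.g X (fun x => w x - w v0 - ∑ i, pvec P.g w v ε i * (ell P.g v0 i x : ℂ))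
            ≤ Cg * dnorm P.g' (P.N.cl X) w) := by
  refine ⟨((4 * (locK R n0 + 1) * (8 * (locK R n0 + 1) + 1) : ℕ) : ℝ≥0), 4 * (locK R n0 + 2), 8, ?_⟩
  intro D0 hD0 G ℓ hℓ P X hconn hcard v0 hv0
  have c : GCtx R n0 P X v0 := ⟨hconn, hcard, hv0, hℓ.trans Nat.lt_two_pow_self.le, hD0⟩
  refine ⟨fun w => (c.osc w).trans ?_, fun hB => ⟨fun i => (c.ell_le hB i).trans ?_, fun v hv ε w => c.aff hB hv ε w⟩⟩
  · refine mul_le_mul_left (α := ℝ≥0) ?_ _ |> fun h => h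
    exact_mod_cast (by nlinarith : 4 * (locK R n0 + 1) ≤ 4 * (locK R n0 + 1) * (8 * (locK R n0 + 1) + 1))
  · exact_mod_cast (by nlinarith : 2 * (locK R n0 + 1) ≤ 4 * (locK R n0 + 1) * (8 * (locK R n0 + 1) + 1))

end

end Claimed.Agent.R285.Loc
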