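import Claimed.Agent.R285.Loc.Chart
import Claimed.Agent.R285.Reg.Grid
import Claimed.Agent.R285.Geo.Main

/-!
# ROW 285, package PK-LOC ([B] Lemma 4.5), file 8: block indices against lattice distances      (architect helper276)      -- KEEP

`g : Grid G`, `g.Ok`: `blk1 : Fin M → Fin n` monotone, surjective, fibres of size in `[m, 2m)` (`= m` for inner blocks / on the torus).
Tools (all proved): `Geo.geo_arc_in_lo/in_hi/out_lo/out_hi` (abstract arcs of a monotone map with fibres in `[lo, hi]`), `Geo.geo_idist1_per/free`, `Geo.geo_idist1_comm`, `Geo.geo_idist_triangle`,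
`Geo.geo_tour_dist`, `Geo.geo_conn_iff`, `Reg.reg_fiber`, `Reg.regl_d1_per/free`, `Reg.regl_fold_per`, `Reg.regl_fold_in`, `loc_disp_natAbs` (`Loc/Chart.lean`).

## LEAF `LOC-I1` : `loc_disp_le`   (~100 lines)
PLAN.  `loc_disp_natAbs`: the claim is `regD1 a b ≤ (k+1) 2m`.  Symmetric in `a, b` (`reg_d1_comm`, `geo_idist1_comm`): WLOG `a ≤ b`; `f = g.blk1`, `hi = 2m - 1` (`hg.size`), `d = b - a`, `d' = f b - f a ≥ 0` (`hg.mono`).
Free: `idist1 = d'`, `geo_arc_in_hi`: `d + 1 ≤ (d' + 1) hi`.  Torus: `idist1 = min d' (n - d')`; if `d' ≤ k` as before; if `n - d' ≤ k`: for `a < b` `geo_arc_out_hi`: `M - d + 1 ≤ (n - d' + 1) hi` and `regD1 ≤ M - d`; `a = b` trivial.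
## LEAF `LOC-I2` : `loc_idist_le`   (~120 lines)
PLAN.  `b := G.fold y`.  Free: `b = y` (`regl_fold_in`).  Torus: `(b : ℤ) = y % M`, so `y - a = (b - a) + j M`; from `|y - a| ≤ m ≤ M` (`m ≤ M`: a fibre has `≥ m` elements, `Finset.card_le_univ`): with `d = |b - a| < M`: `d ≤ m` or `M - d ≤ m`
(write `y = b + j * M` with `j = y / M`, `Int.emod_add_ediv`; `nlinarith`/case split `j ≤ -2, j = -1, j = 0, j = 1, j ≥ 2`).   WLOG `a ≤ b` (`geo_idist1_comm`).
`d ≤ m`: `geo_arc_in_lo` with `lo = m`: `(d' - 1) m ≤ d - 1 < m`, so `d' ≤ 1` (`Nat.lt_of_mul_lt_mul_right`), `idist1 ≤ d'` (`Geo.geo_idist1_le_abs`).   `M - d ≤ m` (torus): `geo_arc_out_lo`: `(n - d' - 1) m ≤ M - d - 1 < m`, so `n - d' ≤ 1`.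
## LEAF `LOC-I3` : `loc_bulk_coord`, `loc_bulk_collar`, `loc_idx_diam`   (~150 lines)
PLAN.  `loc_bulk_coord`: the fibre of the index `0` (`⟨0, _⟩`) has `≥ m` elements, all `< a` (monotone: `i ≥ a → blk1 i ≥ blk1 a ≥ 1`): they inject into `Finset.range a` / `Finset.Iio a` (`Finset.card_le_card`, `Fin.card_Iio`); the same with the last index `n - 1` and `Finset.Ioi a`
(`Fin.card_Ioi : (Ioi a).card = M - 1 - a`).
`loc_bulk_collar`: unfold `Grid.Bulk`, `Grid.collar`, `Grid.idist`, `geo_idist1_free`; `omega`.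
`loc_idx_diam`: `b ∈ collar X`: `∃ a' ∈ X, idist a' b ≤ 2`; `geo_tour_dist g.idist geo_idist_self geo_idist_comm geo_idist_triangle ((geo_conn_iff ..).1 hX) ha ha' : idist a a' ≤ 2 * X.card * R`; triangle; `Nat.mul_le_mul`.
-/

set_option autoImplicit false

namespace Claimed.Agent.R285.Loc

open scoped BigOperators ENNReal NNReal
open Claimed.Agent.R285.RG

noncomputable section

variable {G : Geom} (g : Grid G)

/-! ### LEAF `LOC-I1` -/

theorem loc_d1_le_aux (hg : g.Ok) {a b : Fin G.M} (hab : a ≤ b) (k : ℕ)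
    (h : g.idist1 (g.blk1 a) (g.blk1 b) ≤ k) : Reg.regD1 G a b ≤ (k + 1) * (2 * g.m) := by
  have hhi : ∀ c, (Finset.univ.filter fun x => g.blk1 x = c).card ≤ 2 * g.m := fun c => (hg.size c).2.le
  have hf : (g.blk1 a : ℕ) ≤ g.blk1 b := hg.mono hab
  have hab' : (a : ℕ) ≤ b := hab
  have h1 := Geo.geo_arc_in_hi g.blk1 hg.mono hhi hab
  rcases Reg.regl_bc G with hbc | hbc
  · rw [Geo.geo_idist1_per g hbc] at h
    rw [Reg.regl_d1_per G hbc]
    by_cases hk : (g.blk1 b : ℕ) - g.blk1 a ≤ k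
    · have h2 := Nat.mul_le_mul_right (2 * g.m) (show (g.blk1 b : ℕ) - g.blk1 a + 1 ≤ k + 1 by omega)
      omega
    · rcases hab.eq_or_lt with rfl | hlt
      · simp
      · have h3 := Geo.geo_arc_out_hi g.blk1 hg.mono hhi hlt
        have h2 := Nat.mul_le_mul_right (2 * g.m)
          (show g.n - ((g.blk1 b : ℕ) - g.blk1 a) + 1 ≤ k + 1 by omega)
        omega
  · rw [Geo.geo_idist1_free g hbc] at h
    rw [Reg.regl_d1_free G hbc]
    have h2 := Nat.mul_le_mul_right (2 * g.m) (show (g.blk1 b : ℕ) - g.blk1 a + 1 ≤ k + 1 by omega)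
    omega

/-- sites in blocks at index distance `≤ k` are at lattice distance `≤ (k+1) 2m` -/
theorem loc_disp_le (hg : g.Ok) (a b : Fin G.M) (k : ℕ) (h : g.idist1 (g.blk1 a) (g.blk1 b) ≤ k) :
    (disp1 G a b).natAbs ≤ (k + 1) * (2 * g.m) := by
  rw [loc_disp_natAbs]
  rcases le_total a b with hab | hab
  · exact loc_d1_le_aux g hg hab k h
  · rw [Reg.reg_d1_comm]
    rw [Geo.geo_idist1_comm] at h
    exact loc_d1_le_aux g hg hab k h

/-! ### LEAF `LOC-I2` -/

theorem loc_idist_aux (hg : g.Ok) {a b : Fin G.M} (hab : a ≤ b)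
    (h : (b : ℕ) - a ≤ g.m ∨ (G.bc = BC.per ∧ G.M - ((b : ℕ) - a) ≤ g.m)) :
    g.idist1 (g.blk1 a) (g.blk1 b) ≤ 1 := by
  have hlo : ∀ c, g.m ≤ (Finset.univ.filter fun x => g.blk1 x = c).card := fun c => (hg.size c).1
  have hm := hg.pos
  have hf : (g.blk1 a : ℕ) ≤ g.blk1 b := hg.mono hab
  have hab' : (a : ℕ) ≤ b := hab
  have hb := b.2
  rcases h with h | ⟨hbc, h⟩
  · have h1 := Geo.geo_arc_in_lo g.blk1 hg.mono hlo hab
    have h2 : ((g.blk1 b : ℕ) - g.blk1 a - 1) * g.m < 1 * g.m := by omega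
    have h3 := Nat.lt_of_mul_lt_mul_right h2
    have h4 := Geo.geo_idist1_le_abs g (g.blk1 a) (g.blk1 b)
    omega
  · have h1 := Geo.geo_arc_out_lo g.blk1 hg.mono hlo hab
    have h2 : (g.n - ((g.blk1 b : ℕ) - g.blk1 a) - 1) * g.m < 1 * g.m := by omega
    have h3 := Nat.lt_of_mul_lt_mul_right h2
    rw [Geo.geo_idist1_per g hbc]
    omega

/-- sites at lattice distance `≤ m` lie in the same block or in adjacent blocks -/
theorem loc_idist_le (hg : g.Ok) (a : Fin G.M) (y : ℤ) (hy : (y - (a : ℕ)).natAbs ≤ g.m)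
    (hf : G.bc = BC.free → 0 ≤ y ∧ y < G.M) : g.idist1 (g.blk1 a) (g.blk1 (G.fold y)) ≤ 1 := by
  have hmM : g.m ≤ G.M := by
    have h1 := (hg.size (g.blk1 a)).1
    have h2 := Finset.card_le_univ (Finset.univ.filter fun i => g.blk1 i = g.blk1 a)
    rw [Fintype.card_fin] at h2
    omega
  have ha := a.2
  obtain ⟨b, hb⟩ : ∃ b, b = G.fold y := ⟨_, rfl⟩
  rw [← hb]
  have hb2 := b.2
  have key : (((b : ℕ) : ℤ) - (a : ℕ)).natAbs ≤ g.m ∨
      (G.bc = BC.per ∧ G.M - (((b : ℕ) : ℤ) - (a : ℕ)).natAbs ≤ g.m) := by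
    rcases Reg.regl_bc G with hbc | hbc
    · have e := Reg.regl_fold_per G hbc y
      rw [← hb] at e
      have e2 := Int.emod_add_mul_ediv y G.M
      obtain ⟨j, hj⟩ : ∃ j, j = y / (G.M : ℤ) := ⟨_, rfl⟩
      rw [← hj, ← e] at e2
      have hM0 : (0 : ℤ) < G.M := by exact_mod_cast G.hM
      rcases lt_trichotomy j 0 with h0 | h0 | h0
      · right
        refine ⟨hbc, ?_⟩
        have : (G.M : ℤ) * j ≤ -G.M := by nlinarith
        omega
      · left
        subst h0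
        rw [mul_zero, add_zero] at e2
        omega
      · right
        refine ⟨hbc, ?_⟩
        have : (G.M : ℤ) ≤ G.M * j := by nlinarith
        omega
    · left
      obtain ⟨a1, a2⟩ := hf hbc
      have e := Reg.regl_fold_in G y a1 a2
      rw [← hb] at e
      omega
  rcases le_total a b with hab | hab
  · refine loc_idist_aux g hg hab ?_
    have hab' : (a : ℕ) ≤ b := hab
    rcases key with k | ⟨k1, k2⟩
    · left
      omega
    · right
      exact ⟨k1, by omega⟩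
  · rw [Geo.geo_idist1_comm]
    refine loc_idist_aux g hg hab ?_
    have hab' : (b : ℕ) ≤ a := hab
    rcases key with k | ⟨k1, k2⟩
    · left
      omega
    · right
      exact ⟨k1, by omega⟩

/-! ### LEAF `LOC-I3` -/

/-- a site whose block is neither the first nor the last one is at distance `≥ m` from the walls -/
theorem loc_bulk_coord (hg : g.Ok) (a : Fin G.M) (h1 : 1 ≤ (g.blk1 a : ℕ)) (h2 : (g.blk1 a : ℕ) + 2 ≤ g.n) :
    g.m ≤ (a : ℕ) ∧ (a : ℕ) + g.m < G.M := by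
  have hm := hg.pos
  constructor
  · obtain ⟨s, q, q1, q2, q3, q4⟩ := Reg.reg_fiber g hg ⟨0, by omega⟩
    have hi : g.blk1 ⟨s + q - 1, by omega⟩ = ⟨0, by omega⟩ := (q4 _).2 ⟨by simp only; omega, by simp only; omega⟩
    by_contra hc
    have hle : a ≤ (⟨s + q - 1, by omega⟩ : Fin G.M) := by
      rw [Fin.le_def]
      simp only
      omega
    have := hg.mono hle
    rw [hi, Fin.le_def] at this
    simp only at this
    omega
  · obtain ⟨s, q, q1, q2, q3, q4⟩ := Reg.reg_fiber g hg ⟨g.n - 1, by omega⟩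
    have hi : g.blk1 ⟨s, by omega⟩ = ⟨g.n - 1, by omega⟩ := (q4 _).2 ⟨by simp only; omega, by simp only; omega⟩
    by_contra hc
    have hle : (⟨s, by omega⟩ : Fin G.M) ≤ a := by
      rw [Fin.le_def]
      simp only
      omega
    have := hg.mono hle
    rw [hi, Fin.le_def] at this
    simp only at this
    omega

theorem loc_bulk_collar (hf : G.bc = BC.free) {X : Finset g.I} (hB : g.Bulk X) {b : g.I} (hb : b ∈ g.collar X) :
    (1 ≤ (b.1 : ℕ) ∧ (b.1 : ℕ) + 2 ≤ g.n) ∧ (1 ≤ (b.2 : ℕ) ∧ (b.2 : ℕ) + 2 ≤ g.n) := by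
  obtain ⟨a, ha, h2⟩ := (Finset.mem_filter.1 hb).2
  rcases hB with hB | hB
  · rw [hf] at hB
    exact absurd hB (by simp)
  · obtain ⟨c1, c2, c3, c4⟩ := hB a ha
    unfold Grid.idist at h2
    rw [Geo.geo_idist1_free g hf, Geo.geo_idist1_free g hf] at h2
    omega

/-- index diameter of the collar of a small polymer -/
theorem loc_idx_diam {R n0 : ℕ} {X : Finset g.I} (hX : g.Conn R X) (hc : X.card ≤ n0) {a b : g.I} (ha : a ∈ X)
    (hb : b ∈ g.collar X) : g.idist a b ≤ 2 * n0 * R + 2 := by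
  obtain ⟨a', ha', h2⟩ := (Finset.mem_filter.1 hb).2
  have h1 := Geo.geo_tour_dist g.idist (Geo.geo_idist_self g) (Geo.geo_idist_comm g) (Geo.geo_idist_triangle g)
    ((Geo.geo_conn_iff g R X).1 hX) ha ha'
  have h3 := Geo.geo_idist_triangle g a a' b
  have h4 : 2 * X.card * R ≤ 2 * n0 * R := Nat.mul_le_mul_right R (Nat.mul_le_mul_left 2 hc)
  omega

end

end Claimed.Agent.R285.Loc
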