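import Claimed.Agent.R285.Reg.Lat

/-!
# ROW 285, package PK-LOC ([B] Lemma 4.5), file 6: discrete Taylor estimates on `ℤ²`      (architect helper276)      -- KEEP

Pure `ℤ²`: no folding, no grid.  `dif e f x = f (x + e) - f x`, `dir : Fin 4 → ℤ × ℤ = ![(1,0), (-1,0), (0,1), (0,-1)]` (`Base/RG.lean`).

## LEAF `LOC-Z1` : `loc_z_line`, `loc_z_osc`   (~120 lines)
PLAN.  `loc_z_line` (one axis): induction on `n = (b - a).natAbs` (generalise `b`): if `a < b` then `f b - f a = (f b - f (b-1)) + (f (b-1) - f a)`, and `f b - f (b - 1) = -(f (b + -1) - f b)`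
is controlled by the hypothesis at the point `b` (backward step); symmetric if `b < a` (forward step at `b`).  All points `b - 1` stay between `a` and `b` (`omega`).
`loc_z_osc`: `W y - W x = (W (y.1, y.2) - W (y.1, x.2)) + (W (y.1, x.2) - W (x.1, x.2))`; apply `loc_z_line` to `t ↦ W (t, x.2)` (steps `dir 0`, `dir 1`) and to `t ↦ W (y.1, t)` (steps `dir 2`, `dir 3`);
`dif (dir 0) W (t, c) = W (t + 1, c) - W (t, c)` by `simp [dif, dir]`.  The points `(t, x.2)`, `(y.1, t)` satisfy `Btw x · y` (`le_max_iff`, `min_le_iff`, `omega` after `simp only [Btw]`).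
## LEAF `LOC-Z2` : `loc_z_dif_aff`, `loc_z_aff`   (~250 lines)
PLAN.  `loc_z_dif_aff`: `fin_cases e`, `simp [zaff, dif, dir]`, `ring` : `∇_e (zaff) (z) = ∇_e W (z) - (slope of the axis of e) * (± 1)`.
First differences: with `i` the axis of `e`, `σ` its sign: `∇_e zaff (z) = ∇_e W (z) - σ ε_i ∇_{ε_i e_i} W (u)`.  If `σ = ε_i`: `= ∇_e W (z) - ∇_e W (u)`: `loc_z_osc` for the function `dif (dir e) W` on the rectangle spanned by
`u, z` (inside `S` by `hS`), with `K = K2`, length `≤ 4 ρ` (`|z - u| ≤ |z - x0| + |u - x0|` on each axis).  If `σ = - ε_i`: add and subtract `∇_e W (u)`: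
`∇_e W (u) + ∇_{-e} W (u) = - dif (dir e) (dif (dir (opp e)) W) u` (unfold `dif`; `dir (regOpp e) = - dir e`: `Reg.reg_dir_opp`), one more `K2`.   (8 cases `e × ε_i`: do `fin_cases e` and `cases h : ε 0`/`ε 1`.)
Values: `zaff .. x0 = 0`, then `loc_z_osc` for `zaff` on the rectangle spanned by `x0, z`, `K = (4ρ+1) K2`, length `≤ 2ρ`.
Second differences: apply `loc_z_dif_aff` twice: the first difference of `zaff` is `∇_{e'} W` minus a CONSTANT function.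
-/

set_option autoImplicit false

namespace Claimed.Agent.R285.Loc

open scoped BigOperators ENNReal NNReal
open Claimed.Agent.R285.RG

noncomputable section

/-- `z` lies in the rectangle spanned by `x` and `y` -/
def Btw (x z y : ℤ × ℤ) : Prop :=
  (min x.1 y.1 ≤ z.1 ∧ z.1 ≤ max x.1 y.1) ∧ (min x.2 y.2 ≤ z.2 ∧ z.2 ≤ max x.2 y.2)

/-- the direction `ε_i e_i` (as in `RG.pvec`) -/
def edir (ε : Fin 2 → Bool) (i : Fin 2) : Fin 4 := if i = 0 then (if ε i then 1 else 0) else (if ε i then 3 else 2)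

/-- the slope `ε_i ∇_{ε_i e_i} W (u)` -/
def zsl (W : ℤ × ℤ → ℂ) (u : ℤ × ℤ) (ε : Fin 2 → Bool) (i : Fin 2) : ℂ :=
  (if ε i then -1 else 1) * dif (dir (edir ε i)) W u

/-- `W - W (x0) - slopes · (z - x0)` -/
def zaff (W : ℤ × ℤ → ℂ) (x0 u : ℤ × ℤ) (ε : Fin 2 → Bool) : ℤ × ℤ → ℂ := fun z =>
  W z - W x0 - (zsl W u ε 0 * ((z.1 - x0.1 : ℤ) : ℂ) + zsl W u ε 1 * ((z.2 - x0.2 : ℤ) : ℂ))

/-! ### LEAF `LOC-Z1` -/

theorem loc_z_line {α : Type} [NormedAddCommGroup α] (f : ℤ → α) (a b : ℤ) (K : ℝ≥0)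
    (h : ∀ t, min a b ≤ t → t ≤ max a b → ‖f (t + 1) - f t‖₊ ≤ K ∧ ‖f (t + -1) - f t‖₊ ≤ K) :
    ‖f b - f a‖₊ ≤ ((b - a).natAbs : ℕ) * K := by
  obtain ⟨n, hn⟩ : ∃ n, n = (b - a).natAbs := ⟨_, rfl⟩
  rw [← hn]
  induction n generalizing b with
  | zero =>
    have hba : b = a := by omega
    subst hba
    simp
  | succ n ih =>
    rcases lt_trichotomy a b with hab | hab | hab
    · have h1 := ih (b - 1) (fun t h1 h2 => h t (by omega) (by omega)) (by omega)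
      have h2 := (h b (by omega) (by omega)).2
      have e : f b - f a = (f (b - 1) - f a) - (f (b + -1) - f b) := by
        rw [← sub_eq_add_neg]
        abel
      rw [e]
      calc ‖(f (b - 1) - f a) - (f (b + -1) - f b)‖₊ ≤ ‖f (b - 1) - f a‖₊ + ‖f (b + -1) - f b‖₊ :=
            nnnorm_sub_le _ _
        _ ≤ n * K + K := add_le_add h1 h2
        _ = ((n + 1 : ℕ) : ℝ≥0) * K := by push_cast; ring
    · omega
    · have h1 := ih (b + 1) (fun t h1 h2 => h t (by omega) (by omega)) (by omega)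
      have h2 := (h b (by omega) (by omega)).1
      have e : f b - f a = (f (b + 1) - f a) - (f (b + 1) - f b) := by
        abel
      rw [e]
      calc ‖(f (b + 1) - f a) - (f (b + 1) - f b)‖₊ ≤ ‖f (b + 1) - f a‖₊ + ‖f (b + 1) - f b‖₊ :=
            nnnorm_sub_le _ _
        _ ≤ n * K + K := add_le_add h1 h2
        _ = ((n + 1 : ℕ) : ℝ≥0) * K := by push_cast; ring

theorem loc_z_osc {α : Type} [NormedAddCommGroup α] (W : ℤ × ℤ → α) (x y : ℤ × ℤ) (K : ℝ≥0)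
    (h : ∀ z, Btw x z y → ∀ e : Fin 4, ‖dif (dir e) W z‖₊ ≤ K) :
    ‖W y - W x‖₊ ≤ ((y.1 - x.1).natAbs + (y.2 - x.2).natAbs : ℕ) * K := by
  have h1 := loc_z_line (fun t => W (t, x.2)) x.1 y.1 K (fun t h1 h2 => by
    have hb : Btw x (t, x.2) y := ⟨⟨h1, h2⟩, ⟨min_le_left _ _, le_max_left _ _⟩⟩
    have a0 := h _ hb 0
    have a1 := h _ hb 1
    simp only [dif, dir, Matrix.cons_val_zero, Matrix.cons_val_one, Prod.mk_add_mk, add_zero] at a0 a1
    exact ⟨a0, a1⟩)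
  have h2 := loc_z_line (fun t => W (y.1, t)) x.2 y.2 K (fun t h1 h2 => by
    have hb : Btw x (y.1, t) y := ⟨⟨min_le_right _ _, le_max_right _ _⟩, ⟨h1, h2⟩⟩
    have a0 := h _ hb 2
    have a1 := h _ hb 3
    simp [dif, dir] at a0 a1
    exact ⟨a0, a1⟩)
  have e : W y - W x = (W (y.1, y.2) - W (y.1, x.2)) + (W (y.1, x.2) - W (x.1, x.2)) := by
    abel
  rw [e]
  calc ‖(W (y.1, y.2) - W (y.1, x.2)) + (W (y.1, x.2) - W (x.1, x.2))‖₊
      ≤ ‖W (y.1, y.2) - W (y.1, x.2)‖₊ + ‖W (y.1, x.2) - W (x.1, x.2)‖₊ := nnnorm_add_le _ _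
    _ ≤ ((y.2 - x.2).natAbs : ℕ) * K + ((y.1 - x.1).natAbs : ℕ) * K := add_le_add h2 h1
    _ = ((y.1 - x.1).natAbs + (y.2 - x.2).natAbs : ℕ) * K := by push_cast; ring

/-! ### LEAF `LOC-Z2` -/

/-- the first differences of `zaff` differ from those of `W` by constants -/
theorem loc_z_dif_aff (W : ℤ × ℤ → ℂ) (x0 u : ℤ × ℤ) (ε : Fin 2 → Bool) (e : Fin 4) (z : ℤ × ℤ) :
    dif (dir e) (zaff W x0 u ε) z
      = dif (dir e) W z - (zsl W u ε 0 * (((dir e).1 : ℤ) : ℂ) + zsl W u ε 1 * (((dir e).2 : ℤ) : ℂ)) := by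
  simp only [dif, zaff, Prod.fst_add, Prod.snd_add]
  push_cast
  ring

/-- the slope along `e` is the one-sided difference at `u`, up to one second difference -/
theorem loc_z_slope (W : ℤ × ℤ → ℂ) (u : ℤ × ℤ) (ε : Fin 2 → Bool) (e : Fin 4) :
    zsl W u ε 0 * (((dir e).1 : ℤ) : ℂ) + zsl W u ε 1 * (((dir e).2 : ℤ) : ℂ) = dif (dir e) W u ∨
    zsl W u ε 0 * (((dir e).1 : ℤ) : ℂ) + zsl W u ε 1 * (((dir e).2 : ℤ) : ℂ) =
      dif (dir e) W u + dif (dir e) (dif (dir (Reg.regOpp e)) W) u := by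
  have key : ∀ e : Fin 4, - dif (dir (Reg.regOpp e)) W u =
      dif (dir e) W u + dif (dir e) (dif (dir (Reg.regOpp e)) W) u := by
    intro e
    simp only [dif, Reg.reg_dir_opp, add_neg_cancel_right]
    ring
  fin_cases e
  · cases h : ε 0
    · left
      simp [zsl, edir, dir, h]
    · right
      rw [← key]
      simp [zsl, edir, dir, h, Reg.regOpp]
  · cases h : ε 0
    · right
      rw [← key]
      simp [zsl, edir, dir, h, Reg.regOpp]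
    · left
      simp [zsl, edir, dir, h]
  · cases h : ε 1
    · left
      simp [zsl, edir, dir, h]
    · right
      rw [← key]
      simp [zsl, edir, dir, h, Reg.regOpp]
  · cases h : ε 1
    · right
      rw [← key]
      simp [zsl, edir, dir, h, Reg.regOpp]
    · left
      simp [zsl, edir, dir, h]

theorem loc_z_aff (W : ℤ × ℤ → ℂ) (x0 u : ℤ × ℤ) (ε : Fin 2 → Bool) (ρ : ℕ) (K2 : ℝ≥0) (S : Set (ℤ × ℤ))
    (hS : ∀ x ∈ S, ∀ y ∈ S, ∀ z, Btw x z y → z ∈ S) (hx0 : x0 ∈ S) (hu : u ∈ S)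
    (hρ : ∀ z ∈ S, (z.1 - x0.1).natAbs ≤ ρ ∧ (z.2 - x0.2).natAbs ≤ ρ)
    (hK : ∀ z ∈ S, ∀ e e' : Fin 4, ‖dif (dir e) (dif (dir e') W) z‖₊ ≤ K2) :
    ∀ z ∈ S, (∀ e : Fin 4, ‖dif (dir e) (zaff W x0 u ε) z‖₊ ≤ ((4 * ρ + 1 : ℕ) : ℝ≥0) * K2) ∧
      ‖zaff W x0 u ε z‖₊ ≤ ((2 * ρ * (4 * ρ + 1) : ℕ) : ℝ≥0) * K2 ∧
      ∀ e e' : Fin 4, dif (dir e) (dif (dir e') (zaff W x0 u ε)) z = dif (dir e) (dif (dir e') W) z := by
  have P1 : ∀ z ∈ S, ∀ e : Fin 4, ‖dif (dir e) (zaff W x0 u ε) z‖₊ ≤ ((4 * ρ + 1 : ℕ) : ℝ≥0) * K2 := by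
    intro z hz e
    rw [loc_z_dif_aff]
    have a1 := loc_z_osc (dif (dir e) W) u z K2 (fun w hw e' => hK w (hS u hu z hz w hw) e' e)
    have a2 : ‖dif (dir e) W u - (zsl W u ε 0 * (((dir e).1 : ℤ) : ℂ) + zsl W u ε 1 * (((dir e).2 : ℤ) : ℂ))‖₊
        ≤ K2 := by
      rcases loc_z_slope W u ε e with h | h
      · rw [h, sub_self, nnnorm_zero]
        exact zero_le
      · rw [h, sub_add_cancel_left, nnnorm_neg]
        exact hK u hu _ _
    have hn : (z.1 - u.1).natAbs + (z.2 - u.2).natAbs ≤ 4 * ρ := by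
      have b1 := hρ z hz
      have b2 := hρ u hu
      omega
    have hn' : (((z.1 - u.1).natAbs + (z.2 - u.2).natAbs : ℕ) : ℝ≥0) ≤ ((4 * ρ : ℕ) : ℝ≥0) := by
      exact_mod_cast hn
    have e1 : dif (dir e) W z - (zsl W u ε 0 * (((dir e).1 : ℤ) : ℂ) + zsl W u ε 1 * (((dir e).2 : ℤ) : ℂ)) =
        (dif (dir e) W z - dif (dir e) W u) +
          (dif (dir e) W u - (zsl W u ε 0 * (((dir e).1 : ℤ) : ℂ) + zsl W u ε 1 * (((dir e).2 : ℤ) : ℂ))) := by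
      ring
    rw [e1]
    calc _ ≤ ‖dif (dir e) W z - dif (dir e) W u‖₊ +
          ‖dif (dir e) W u - (zsl W u ε 0 * (((dir e).1 : ℤ) : ℂ) + zsl W u ε 1 * (((dir e).2 : ℤ) : ℂ))‖₊ :=
          nnnorm_add_le _ _
      _ ≤ (((z.1 - u.1).natAbs + (z.2 - u.2).natAbs : ℕ) : ℝ≥0) * K2 + K2 := add_le_add a1 a2
      _ ≤ ((4 * ρ : ℕ) : ℝ≥0) * K2 + K2 := by gcongr
      _ = ((4 * ρ + 1 : ℕ) : ℝ≥0) * K2 := by push_cast; ring
  intro z hz
  refine ⟨P1 z hz, ?_, ?_⟩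
  · have a1 := loc_z_osc (zaff W x0 u ε) x0 z (((4 * ρ + 1 : ℕ) : ℝ≥0) * K2)
      (fun w hw e => P1 w (hS x0 hx0 z hz w hw) e)
    have e0 : zaff W x0 u ε x0 = 0 := by simp [zaff]
    rw [e0, sub_zero] at a1
    have hn : (z.1 - x0.1).natAbs + (z.2 - x0.2).natAbs ≤ 2 * ρ := by
      have b1 := hρ z hz
      omega
    have hn' : (((z.1 - x0.1).natAbs + (z.2 - x0.2).natAbs : ℕ) : ℝ≥0) ≤ ((2 * ρ : ℕ) : ℝ≥0) := by
      exact_mod_cast hn
    calc _ ≤ (((z.1 - x0.1).natAbs + (z.2 - x0.2).natAbs : ℕ) : ℝ≥0) * (((4 * ρ + 1 : ℕ) : ℝ≥0) * K2) := a1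
      _ ≤ ((2 * ρ : ℕ) : ℝ≥0) * (((4 * ρ + 1 : ℕ) : ℝ≥0) * K2) := by gcongr
      _ = ((2 * ρ * (4 * ρ + 1) : ℕ) : ℝ≥0) * K2 := by push_cast; ring
  · intro e e'
    have h1 : dif (dir e') (zaff W x0 u ε) = fun z => dif (dir e') W z -
        (zsl W u ε 0 * (((dir e').1 : ℤ) : ℂ) + zsl W u ε 1 * (((dir e').2 : ℤ) : ℂ)) :=
      funext (loc_z_dif_aff W x0 u ε e')
    rw [h1]
    simp only [dif]
    ring

end

end Claimed.Agent.R285.Loc
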