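import Claimed.Agent.R285.Loc.Dn
import Claimed.Agent.R285.Loc.Zl
import Claimed.Agent.R285.Loc.Idx

/-!
# ROW 285, package PK-LOC ([B] Lemma 4.5), file 9b: the region around a small polymer; (rg:fine-radius)      (owner helper276)
-/

set_option autoImplicit false

namespace Claimed.Agent.R285.Loc

open scoped BigOperators ENNReal NNReal
open Claimed.Agent.R285.RG Claimed.Agent.R285.Hol Claimed.Agent.R285.Reg

noncomputable section

variable {G : Geom}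

/-- index radius of the collar of a small polymer -/
def locK (R n0 : ℕ) : ℕ := 2 * n0 * R + 2

/-- the geometric context -/
structure GCtx (R n0 : ℕ) {D0 ℓ : ℕ} (P : Pair G D0 ℓ) (X : Finset P.g.I) (v0 : G.V) : Prop where
  conn : P.g.Conn R X
  card : X.card ≤ n0
  v0 : v0 ∈ P.g.sites X
  hℓ : 4 * (locK R n0 + 2) ≤ 2 ^ ℓ
  hD : 8 ≤ D0

variable {R n0 D0 ℓ : ℕ} {P : Pair G D0 ℓ} {X : Finset P.g.I} {v0 : G.V}

/-- lattice radius of the fine collar -/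
def GCtx.ρ (_c : GCtx R n0 P X v0) : ℕ := (locK R n0 + 1) * (2 * P.g.m)

theorem GCtx.m_pos (_c : GCtx R n0 P X v0) : 0 < P.g.m := P.ok.pos

/-- `2 (ρ + 2 m) ≤ m'` -/
theorem GCtx.ρ_le (c : GCtx R n0 P X v0) : 2 * (c.ρ + 2 * P.g.m) ≤ P.g'.m := by
  have h := Nat.mul_le_mul_right P.g.m c.hℓ
  rw [P.hS]
  unfold GCtx.ρ
  nlinarith

theorem GCtx.M_gt (c : GCtx R n0 P X v0) : 8 * P.g'.m < G.M :=
  lt_of_le_of_lt (Nat.mul_le_mul_right _ c.hD) P.clear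

/-- the region: honest lifts within `r` of `ι v0` -/
def Rg (G : Geom) (v0 : G.V) (r : ℕ) : Set (ℤ × ℤ) :=
  {z | Ins G z ∧ (z.1 - (v0.1 : ℕ)).natAbs ≤ r ∧ (z.2 - (v0.2 : ℕ)).natAbs ≤ r}

theorem Rg_btw (v0 : G.V) (r : ℕ) : ∀ x ∈ Rg G v0 r, ∀ y ∈ Rg G v0 r, ∀ z, Btw x z y → z ∈ Rg G v0 r := by
  intro x hx y hy z hz
  obtain ⟨hx0, hx1, hx2⟩ := hx
  obtain ⟨hy0, hy1, hy2⟩ := hy
  obtain ⟨⟨a1, a2⟩, b1, b2⟩ := hz
  refine ⟨fun hf => ?_, ?_, ?_⟩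
  · obtain ⟨⟨p1, p2⟩, p3, p4⟩ := hx0 hf
    obtain ⟨⟨q1, q2⟩, q3, q4⟩ := hy0 hf
    refine ⟨⟨?_, ?_⟩, ?_, ?_⟩ <;> omega
  · omega
  · omega

theorem Rg_iota (v0 : G.V) (r : ℕ) : G.ι v0 ∈ Rg G v0 r := by
  refine ⟨fun _ => ?_, ?_, ?_⟩
  · have h1 := v0.1.2
    have h2 := v0.2.2
    simp only [Geom.ι]
    omega
  · simp [Geom.ι]
  · simp [Geom.ι]

theorem Rg_mono (v0 : G.V) {r r' : ℕ} (h : r ≤ r') : Rg G v0 r ⊆ Rg G v0 r' :=
  fun _ hz => ⟨hz.1, hz.2.1.trans h, hz.2.2.trans h⟩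

/-- the chart of the fine collar lies in the region of radius `ρ` -/
theorem GCtx.chart_mem (c : GCtx R n0 P X v0) {x : G.V} (hx : x ∈ P.g.Dm X) : chart G v0 x ∈ Rg G v0 c.ρ := by
  have ha : P.g.blk v0 ∈ X := (reg_mem_sites P.g X v0).1 c.v0
  have hb : P.g.blk x ∈ P.g.collar X := (reg_mem_Dm P.g X x).1 hx
  have hd := loc_idx_diam P.g c.conn c.card ha hb
  have h1 := loc_disp_le P.g P.ok v0.1 x.1 (locK R n0) ((le_max_left _ _).trans hd)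
  have h2 := loc_disp_le P.g P.ok v0.2 x.2 (locK R n0) ((le_max_right _ _).trans hd)
  refine ⟨fun hf => ?_, ?_, ?_⟩
  · rw [loc_chart_free G hf]
    have h1 := x.1.2
    have h2 := x.2.2
    simp only [Geom.ι]
    omega
  · simpa [chart, GCtx.ρ] using h1
  · simpa [chart, GCtx.ρ] using h2

/-- the region of radius `m'` folds into the coarse collar -/
theorem GCtx.pi_mem (c : GCtx R n0 P X v0) {z : ℤ × ℤ} (hz : z ∈ Rg G v0 P.g'.m) : G.π z ∈ P.g'.Dm (P.N.cl X) := by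
  obtain ⟨h0, h1, h2⟩ := hz
  rw [reg_mem_Dm, regd_mem_collar]
  refine ⟨P.g'.blk v0, ?_, ?_⟩
  · rw [blk_up]
    exact Finset.mem_image_of_mem _ ((reg_mem_sites P.g X v0).1 c.v0)
  · have a1 := loc_idist_le P.g' P.ok' v0.1 z.1 h1 (fun hf => (h0 hf).1)
    have a2 := loc_idist_le P.g' P.ok' v0.2 z.2 h2 (fun hf => (h0 hf).2)
    have : P.g'.idist (P.g'.blk v0) (P.g'.blk (G.π z)) ≤ 1 := max_le a1 a2
    omega

/-- differences at an honest lift are differences at the canonical lift of the folded site -/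
theorem loc_difs_pi {α : Type} [AddGroup α] {r : ℕ} (a : Fin r → Fin 4) (f : G.V → α) {z : ℤ × ℤ} (hz : Ins G z) :
    difs a (G.lift f) z = difs a (G.lift f) (G.ι (G.π z)) :=
  (loc_difs_shift a (G.lift f) (loc_lift_shift f (loc_pi_shift G z hz))).symm

theorem loc_difs_chart {α : Type} [AddGroup α] {r : ℕ} (a : Fin r → Fin 4) (f : G.V → α) (v0 x : G.V) :
    difs a (G.lift f) (chart G v0 x) = difs a (G.lift f) (G.ι x) :=
  loc_difs_shift a (G.lift f) (loc_lift_shift f (loc_chart_pi G v0 x))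

theorem loc_lift_chart {α : Type} (f : G.V → α) (v0 x : G.V) : G.lift f (chart G v0 x) = f x := by
  have := loc_chart_pi G v0 x 0
  simp only [add_zero] at this
  unfold Geom.lift
  rw [this, reg_pi_iota]

theorem loc_lift_iota {α : Type} (f : G.V → α) (x : G.V) : G.lift f (G.ι x) = f x := by
  unfold Geom.lift; rw [reg_pi_iota]

/-- first differences in the region, in terms of the coarse `dnorm` -/
theorem GCtx.d1_le {α : Type} [NormedAddCommGroup α] (c : GCtx R n0 P X v0) (w : G.V → α) {z : ℤ × ℤ} (hz : z ∈ Rg G v0 P.g'.m)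
    (e : Fin 4) : (P.g'.m : ℝ≥0) * ‖dif (dir e) (G.lift w) z‖₊ ≤ dnorm P.g' (P.N.cl X) w := by
  have h := (dnorm_spec P.g' (P.N.cl X) w _ (c.pi_mem hz)).1 ![e]
  rwa [← loc_difs_pi _ _ hz.1, reg_difs_one] at h

/-- second differences in the region -/
theorem GCtx.d2_le {α : Type} [NormedAddCommGroup α] (c : GCtx R n0 P X v0) (w : G.V → α) {z : ℤ × ℤ} (hz : z ∈ Rg G v0 P.g'.m)
    (e e' : Fin 4) : (P.g'.m : ℝ≥0) ^ 2 * ‖dif (dir e) (dif (dir e') (G.lift w)) z‖₊ ≤ dnorm P.g' (P.N.cl X) w := by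
  have h := (dnorm_spec P.g' (P.N.cl X) w _ (c.pi_mem hz)).2 ![e, e']
  rwa [← loc_difs_pi _ _ hz.1, regl_difs_two] at h

theorem GCtx.m'_pos (_c : GCtx R n0 P X v0) : (0 : ℝ≥0) < P.g'.m := by exact_mod_cast P.ok'.pos

theorem GCtx.m'_eq (_c : GCtx R n0 P X v0) : (P.g'.m : ℝ≥0) = 2 ^ ℓ * P.g.m := by
  rw [P.hS]; push_cast; ring

/-- oscillation over the fine collar -/
theorem GCtx.osc_raw {α : Type} [NormedAddCommGroup α] (c : GCtx R n0 P X v0) (w : G.V → α) {x : G.V} (hx : x ∈ P.g.Dm X) :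
    (P.g'.m : ℝ≥0) * ‖w x - w v0‖₊ ≤ ((2 * c.ρ : ℕ) : ℝ≥0) * dnorm P.g' (P.N.cl X) w := by
  have hm' := c.m'_pos
  have hy := c.chart_mem hx
  have hρ : c.ρ ≤ P.g'.m := by have := c.ρ_le; omega
  have h := loc_z_osc (G.lift w) (G.ι v0) (chart G v0 x) (dnorm P.g' (P.N.cl X) w / P.g'.m) (fun z hz e => by
    rw [le_div_iff₀ hm', mul_comm]
    exact c.d1_le w (Rg_mono v0 hρ (Rg_btw v0 c.ρ _ (Rg_iota v0 _) _ hy z hz)) e)
  rw [loc_lift_chart, loc_lift_iota] at h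
  have hn : ((chart G v0 x).1 - (G.ι v0).1).natAbs + ((chart G v0 x).2 - (G.ι v0).2).natAbs ≤ 2 * c.ρ := by
    have h1 := hy.2.1
    have h2 := hy.2.2
    simp only [Geom.ι]
    omega
  calc (P.g'.m : ℝ≥0) * ‖w x - w v0‖₊
      ≤ (P.g'.m : ℝ≥0) * ((((chart G v0 x).1 - (G.ι v0).1).natAbs + ((chart G v0 x).2 - (G.ι v0).2).natAbs : ℕ)
          * (dnorm P.g' (P.N.cl X) w / P.g'.m)) := by gcongr
    _ ≤ (P.g'.m : ℝ≥0) * (((2 * c.ρ : ℕ) : ℝ≥0) * (dnorm P.g' (P.N.cl X) w / P.g'.m)) := by gcongr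
    _ = _ := by field_simp

/-- differences do not see constants -/
theorem loc_difs_sub_const {α : Type} [AddCommGroup α] {r : ℕ} (a : Fin (r + 1) → Fin 4) (w : G.V → α) (q : α) (z : ℤ × ℤ) :
    difs a (G.lift fun x => w x - q) z = difs a (G.lift w) z := by
  have e : G.lift (fun x => w x - q) = fun y => G.lift w y + (fun _ => -q) y := by
    ext y; simp [Geom.lift, sub_eq_add_neg]
  rw [e, difs_add, difs_const, add_zero]

/-- **(rg:fine-radius)** -/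
theorem GCtx.osc {α : Type} [NormedAddCommGroup α] (c : GCtx R n0 P X v0) (w : G.V → α) :
    (2 ^ ℓ : ℝ≥0) * tnorm P.g X (fun x => w x - w v0) ≤ ((4 * (locK R n0 + 1) : ℕ) : ℝ≥0) * dnorm P.g' (P.N.cl X) w := by
  have hL : (0 : ℝ≥0) < 2 ^ ℓ := by positivity
  have hL1 : (1 : ℝ≥0) ≤ 2 ^ ℓ := one_le_pow₀ one_le_two
  have hm : (0 : ℝ≥0) < P.g.m := by exact_mod_cast c.m_pos
  set Dn := dnorm P.g' (P.N.cl X) w with hDn
  set Cn : ℝ≥0 := ((4 * (locK R n0 + 1) : ℕ) : ℝ≥0) with hCn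
  have hCn1 : 1 ≤ Cn := by rw [hCn]; exact_mod_cast (by omega : 1 ≤ 4 * (locK R n0 + 1))
  have key : tnorm P.g X (fun x => w x - w v0) ≤ Cn * Dn / 2 ^ ℓ := by
    rw [tnorm_le_iff]
    intro v hv
    have hv' : v ∈ P.g'.Dm (P.N.cl X) := Dm_coarse P X _ subset_rfl hv
    obtain ⟨s1, s2⟩ := dnorm_spec P.g' (P.N.cl X) w v hv'
    refine ⟨?_, fun a => ?_, fun a => ?_⟩
    · rw [le_div_iff₀ hL]
      have h := c.osc_raw w hv
      rw [c.m'_eq] at h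
      have e : ((2 * c.ρ : ℕ) : ℝ≥0) = Cn * P.g.m := by
        rw [hCn]; unfold GCtx.ρ; push_cast; ring
      rw [e] at h
      have h2 : (P.g.m : ℝ≥0) * (‖w v - w v0‖₊ * 2 ^ ℓ) ≤ P.g.m * (Cn * Dn) := by
        calc (P.g.m : ℝ≥0) * (‖w v - w v0‖₊ * 2 ^ ℓ) = 2 ^ ℓ * P.g.m * ‖w v - w v0‖₊ := by ring
          _ ≤ Cn * P.g.m * Dn := h
          _ = _ := by ring
      exact le_of_mul_le_mul_left h2 hm
    · rw [loc_difs_sub_const, le_div_iff₀ hL]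
      have h := s1 a
      rw [c.m'_eq] at h
      calc (P.g.m : ℝ≥0) * ‖difs a (G.lift w) (G.ι v)‖₊ * 2 ^ ℓ = 2 ^ ℓ * P.g.m * ‖difs a (G.lift w) (G.ι v)‖₊ := by ring
        _ ≤ 1 * Dn := by rw [one_mul]; exact h
        _ ≤ Cn * Dn := by gcongr
    · rw [loc_difs_sub_const, le_div_iff₀ hL]
      have h := s2 a
      rw [c.m'_eq] at h
      calc (P.g.m : ℝ≥0) ^ 2 * ‖difs a (G.lift w) (G.ι v)‖₊ * 2 ^ ℓ
          = 1 * ((P.g.m : ℝ≥0) ^ 2 * ‖difs a (G.lift w) (G.ι v)‖₊ * 2 ^ ℓ) := by ring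
        _ ≤ 2 ^ ℓ * ((P.g.m : ℝ≥0) ^ 2 * ‖difs a (G.lift w) (G.ι v)‖₊ * 2 ^ ℓ) := by gcongr
        _ = (2 ^ ℓ * P.g.m) ^ 2 * ‖difs a (G.lift w) (G.ι v)‖₊ := by ring
        _ ≤ 1 * Dn := by rw [one_mul]; exact h
        _ ≤ Cn * Dn := by gcongr
  calc (2 ^ ℓ : ℝ≥0) * tnorm P.g X (fun x => w x - w v0) ≤ 2 ^ ℓ * (Cn * Dn / 2 ^ ℓ) := by gcongr
    _ = Cn * Dn := by field_simp

end

end Claimed.Agent.R285.Loc
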