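import Claimed.Agent.R285.Loc.Chart

/-!
# ROW 285, package PK-LOC ([B] Lemma 4.5), file 7b: one and two steps from a site at distance `≥ m` from the walls      (architect helper276)      -- KEEP

## LEAF `LOC-C4` : `loc_ins_step`, `loc_ins_step2`   (~120 lines)
`Ins G z` (`Loc/Chart.lean`): on the free square `z ∈ [0,M)²`; no condition on the torus.  `dir = ![(1,0), (-1,0), (0,1), (0,-1)]`.
PLAN.  `intro hf` (or `by_cases hf : G.bc = BC.free`; on the torus `Ins` holds trivially: `fun h => absurd h (by rw [hper]; decide)`/`Reg.regl_bc`), `obtain ⟨⟨a1, a2⟩, a3, a4⟩ := hy hf`, `fin_cases e` (and `e'`), `simp [dir]`, `omega`.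
`loc_ins_step2`: 16 cases.  If `e' ≠ e` the point `y + dir e + dir e'` has both coordinates within `1` of `y`: left alternative.  If `e' = e`: one coordinate moves by `±2`: either still inside (left), or `m = 1` and the coordinate is `-1` or `M`:
then `G.fold (-1) = G.fold 0` and `G.fold M = G.fold (M - 1)` (`Fin.ext`, `Reg.regl_fold_neg_free`, `Reg.regl_fold_M_free`, `Reg.regl_fold_in`), `unfold Geom.π`, `Prod.ext`.
-/

set_option autoImplicit false

namespace Claimed.Agent.R285.Loc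

open Claimed.Agent.R285.RG

variable (G : Geom)

theorem loc_dir_cases (e : Fin 4) : e = 0 ∨ e = 1 ∨ e = 2 ∨ e = 3 := by
  fin_cases e <;> simp

theorem loc_ins_step (y : ℤ × ℤ) (m : ℕ) (hm : 1 ≤ m)
    (hy : G.bc = BC.free → ((m : ℤ) ≤ y.1 ∧ y.1 + m < G.M) ∧ ((m : ℤ) ≤ y.2 ∧ y.2 + m < G.M)) (e : Fin 4) :
    Ins G (y + dir e) := by
  intro hf
  obtain ⟨⟨a1, a2⟩, a3, a4⟩ := hy hf
  have d0 : dir 0 = (1, 0) := rfl
  have d1 : dir 1 = (-1, 0) := rfl
  have d2 : dir 2 = (0, 1) := rfl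
  have d3 : dir 3 = (0, -1) := rfl
  rcases loc_dir_cases e with rfl | rfl | rfl | rfl <;>
    simp only [d0, d1, d2, d3, Prod.fst_add, Prod.snd_add] <;> omega

theorem loc_ins_step2 (y : ℤ × ℤ) (m : ℕ) (hm : 1 ≤ m)
    (hy : G.bc = BC.free → ((m : ℤ) ≤ y.1 ∧ y.1 + m < G.M) ∧ ((m : ℤ) ≤ y.2 ∧ y.2 + m < G.M)) (e e' : Fin 4) :
    Ins G (y + dir e + dir e') ∨ (m = 1 ∧ e' = e ∧ G.π (y + dir e + dir e') = G.π (y + dir e)) := by
  by_cases hf : G.bc = BC.free
  swap
  · left
    exact fun h => absurd h hf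
  obtain ⟨⟨a1, a2⟩, a3, a4⟩ := hy hf
  have hM := G.hM
  have d0 : dir 0 = (1, 0) := rfl
  have d1 : dir 1 = (-1, 0) := rfl
  have d2 : dir 2 = (0, 1) := rfl
  have d3 : dir 3 = (0, -1) := rfl
  have fM : ∀ t : ℤ, t + 1 = G.M → G.fold (t + 1) = G.fold t := by
    intro t ht
    apply Fin.ext
    have e1 := Reg.regl_fold_M_free G hf
    have e2 := Reg.regl_fold_in G t (by omega) (by omega)
    rw [ht]
    omega
  have fN : ∀ t : ℤ, t = 0 → G.fold (t + -1) = G.fold t := by
    intro t ht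
    subst ht
    apply Fin.ext
    have e1 := Reg.regl_fold_neg_free G hf
    have e2 := Reg.regl_fold_in G 0 (by omega) (by omega)
    rw [zero_add]
    omega
  by_cases hin : (0 ≤ (y + dir e + dir e').1 ∧ (y + dir e + dir e').1 < G.M) ∧
      (0 ≤ (y + dir e + dir e').2 ∧ (y + dir e + dir e').2 < G.M)
  · left
    exact fun _ => hin
  right
  rcases loc_dir_cases e with rfl | rfl | rfl | rfl <;> rcases loc_dir_cases e' with rfl | rfl | rfl | rfl <;>
    simp only [d0, d1, d2, d3, Prod.fst_add, Prod.snd_add] at hin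
  all_goals first
    | (exfalso; omega)
    | skip
  · refine ⟨by omega, rfl, ?_⟩
    unfold Geom.π
    simp only [d0, Prod.fst_add, Prod.snd_add, add_zero]
    rw [fM (y.1 + 1) (by omega)]
  · refine ⟨by omega, rfl, ?_⟩
    unfold Geom.π
    simp only [d1, Prod.fst_add, Prod.snd_add, add_zero]
    rw [fN (y.1 + -1) (by omega)]
  · refine ⟨by omega, rfl, ?_⟩
    unfold Geom.π
    simp only [d2, Prod.fst_add, Prod.snd_add, add_zero]
    rw [fM (y.2 + 1) (by omega)]
  · refine ⟨by omega, rfl, ?_⟩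
    unfold Geom.π
    simp only [d3, Prod.fst_add, Prod.snd_add, add_zero]
    rw [fN (y.2 + -1) (by omega)]

end Claimed.Agent.R285.Loc
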