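import Claimed.Agent.R285.Loc.GeoA
import Claimed.Agent.R285.Loc.Refl

/-!
# ROW 285, package PK-LOC ([B] Lemma 4.5), file 9c: bulk polymers: transfer from `ℤ²` to the folded lattice      (owner helper276)
-/

set_option autoImplicit false

namespace Claimed.Agent.R285.Loc

open scoped BigOperators ENNReal NNReal
open Claimed.Agent.R285.RG Claimed.Agent.R285.Hol Claimed.Agent.R285.Reg

noncomputable section

variable {G : Geom} {R n0 D0 ℓ : ℕ} {P : Pair G D0 ℓ} {X : Finset P.g.I} {v0 : G.V}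

/-- in the bulk the fine collar stays at distance `≥ m` from the walls -/
theorem GCtx.wall (_c : GCtx R n0 P X v0) (hB : P.g.Bulk X) {x : G.V} (hx : x ∈ P.g.Dm X) :
    G.bc = BC.free → ((P.g.m : ℤ) ≤ (chart G v0 x).1 ∧ (chart G v0 x).1 + P.g.m < G.M) ∧
      ((P.g.m : ℤ) ≤ (chart G v0 x).2 ∧ (chart G v0 x).2 + P.g.m < G.M) := by
  intro hf
  rw [loc_chart_free G hf]
  have hb : P.g.blk x ∈ P.g.collar X := (reg_mem_Dm P.g X x).1 hx
  obtain ⟨⟨a1, a2⟩, a3, a4⟩ := loc_bulk_collar P.g hf hB hb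
  obtain ⟨b1, b2⟩ := loc_bulk_coord P.g P.ok x.1 a1 a2
  obtain ⟨b3, b4⟩ := loc_bulk_coord P.g P.ok x.2 a3 a4
  simp only [Geom.ι]
  omega

theorem loc_dir_natAbs (e : Fin 4) : (dir e).1.natAbs ≤ 1 ∧ (dir e).2.natAbs ≤ 1 := by
  fin_cases e <;> simp [dir]

theorem Rg_step {r : ℕ} {z : ℤ × ℤ} (hz : z ∈ Rg G v0 r) (e : Fin 4) (hi : Ins G (z + dir e)) : z + dir e ∈ Rg G v0 (r + 1) := by
  obtain ⟨h1, h2⟩ := loc_dir_natAbs e
  refine ⟨hi, ?_, ?_⟩
  · have := hz.2.1; simp only [Prod.fst_add]; omega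
  · have := hz.2.2; simp only [Prod.snd_add]; omega

/-- **transfer**: a function on the folded lattice which is given by `A` in the chart -/
theorem GCtx.transfer {α : Type} [NormedAddCommGroup α] (c : GCtx R n0 P X v0) (hB : P.g.Bulk X) (a : G.V → α) (A : ℤ × ℤ → α)
    (hA : ∀ z ∈ Rg G v0 (c.ρ + 2), a (G.π z) = A z) (b0 b1 b2 : ℝ≥0)
    (h0 : ∀ z ∈ Rg G v0 c.ρ, ‖A z‖₊ ≤ b0) (h1 : ∀ z ∈ Rg G v0 c.ρ, ∀ e, ‖dif (dir e) A z‖₊ ≤ b1)
    (h2 : ∀ z ∈ Rg G v0 c.ρ, ∀ e e', ‖dif (dir e) (dif (dir e') A) z‖₊ ≤ b2) :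
    tnorm P.g X a ≤ max b0 (max (P.g.m * b1) ((P.g.m : ℝ≥0) ^ 2 * b2)) := by
  rw [tnorm_le_iff]
  intro v hv
  set y := chart G v0 v with hy
  have hyR : y ∈ Rg G v0 c.ρ := c.chart_mem hv
  have hw := c.wall hB hv
  have hAl : ∀ z ∈ Rg G v0 (c.ρ + 2), G.lift a z = A z := hA
  have hy0 : G.lift a y = A y := hAl y (Rg_mono v0 (by omega) hyR)
  have hstep : ∀ e, y + dir e ∈ Rg G v0 (c.ρ + 1) := fun e => Rg_step hyR e (loc_ins_step G y P.g.m c.m_pos hw e)
  have hy1 : ∀ e, G.lift a (y + dir e) = A (y + dir e) := fun e => hAl _ (Rg_mono v0 (by omega) (hstep e))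
  have hd1 : ∀ e, dif (dir e) (G.lift a) y = dif (dir e) A y := fun e => by
    unfold dif; rw [hy1, hy0]
  refine ⟨?_, fun w => ?_, fun w => ?_⟩
  · have : a v = A y := by rw [← hy0, hy, loc_lift_chart]
    rw [this]
    exact (h0 y hyR).trans (le_max_left _ _)
  · rw [← loc_difs_chart w a v0 v, difs_one, ← hy, hd1]
    refine le_trans ?_ ((le_max_left _ _).trans (le_max_right _ _))
    gcongr
    exact h1 y hyR _
  · have hw2 : w = ![w 0, w 1] := by funext i; fin_cases i <;> rfl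
    rw [← loc_difs_chart w a v0 v, hw2, regl_difs_two, ← hy]
    set e := w 0
    set e' := w 1
    rcases loc_ins_step2 G y P.g.m c.m_pos hw e e' with hi | ⟨hm1, hee, hπ⟩
    · have hy2 : G.lift a (y + dir e + dir e') = A (y + dir e + dir e') := hAl _ (Rg_step (hstep e) e' hi)
      have : dif (dir e) (dif (dir e') (G.lift a)) y = dif (dir e) (dif (dir e') A) y := by
        unfold dif; rw [hy2, hy1, hy1, hy0]
      rw [this]
      refine le_trans ?_ ((le_max_right _ _).trans (le_max_right _ _))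
      gcongr
      exact h2 y hyR _ _
    · have hl : G.lift a (y + dir e + dir e') = G.lift a (y + dir e) := by unfold Geom.lift; rw [hπ]
      have : dif (dir e) (dif (dir e') (G.lift a)) y = -dif (dir e) A y := by
        rw [← hd1]
        unfold dif; rw [hl, hee]; abel
      rw [this, nnnorm_neg, hm1]
      refine le_trans ?_ ((le_max_left _ _).trans (le_max_right _ _))
      simp only [Nat.cast_one, one_pow, one_mul]
      exact h1 y hyR _

end

end Claimed.Agent.R285.Loc
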