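import Claimed.Agent.R285.Loc.GeoB

/-!
# ROW 285, package PK-LOC ([B] Lemma 4.5), file 9d: bulk polymers: the linear functions `ℓ_i` and the affine approximation      (owner helper276)
-/

set_option autoImplicit false

namespace Claimed.Agent.R285.Loc

open scoped BigOperators ENNReal NNReal
open Claimed.Agent.R285.RG Claimed.Agent.R285.Hol Claimed.Agent.R285.Reg

noncomputable section

variable {G : Geom} {R n0 D0 ℓ : ℕ} {P : Pair G D0 ℓ} {X : Finset P.g.I} {v0 : G.V}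

/-- `ℓ_i` in the chart -/
theorem GCtx.ell_chart (c : GCtx R n0 P X v0) (i : Fin 2) {z : ℤ × ℤ} (hz : z ∈ Rg G v0 (c.ρ + 2)) :
    ell P.g v0 i (G.π z) = (((if i = 0 then z.1 - (v0.1 : ℕ) else z.2 - (v0.2 : ℕ)) : ℤ) : ℝ) / P.g.m := by
  obtain ⟨h0, h1, h2⟩ := hz
  have hρ := c.ρ_le
  have hM := c.M_gt
  have hm := c.m_pos
  have e1 := loc_disp_fold G v0.1 z.1 (by omega) (fun hf => (h0 hf).1)
  have e2 := loc_disp_fold G v0.2 z.2 (by omega) (fun hf => (h0 hf).2)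
  unfold ell Geom.π
  simp only [e1, e2]
  split_ifs <;> rfl

/-- the affine function `(z_i - v_{0,i}) / m` on `ℤ²` -/
def zlin (m : ℕ) (v0 : G.V) (i : Fin 2) : ℤ × ℤ → ℝ := fun z =>
  (((if i = 0 then z.1 - (v0.1 : ℕ) else z.2 - (v0.2 : ℕ)) : ℤ) : ℝ) / m

theorem zlin_dif (m : ℕ) (v0 : G.V) (i : Fin 2) (e : Fin 4) (z : ℤ × ℤ) :
    dif (dir e) (zlin m v0 i) z = (((if i = 0 then (dir e).1 else (dir e).2) : ℤ) : ℝ) / m := by
  unfold dif zlin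
  rw [← sub_div]
  congr 1
  split_ifs <;> simp

/-- `‖ℓ_i‖_{m, D_m(X)} ≤ 2 (K + 1)` -/
theorem GCtx.ell_le (c : GCtx R n0 P X v0) (hB : P.g.Bulk X) (i : Fin 2) :
    tnorm P.g X (ell P.g v0 i) ≤ ((2 * (locK R n0 + 1) : ℕ) : ℝ≥0) := by
  have hm : (0 : ℝ≥0) < P.g.m := by exact_mod_cast c.m_pos
  have hmR : (0 : ℝ) < P.g.m := by exact_mod_cast c.m_pos
  have h := c.transfer hB (ell P.g v0 i) (zlin P.g.m v0 i) (fun z hz => c.ell_chart i hz)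
    ((2 * (locK R n0 + 1) : ℕ) : ℝ≥0) (1 / P.g.m) 0 ?_ ?_ ?_
  · refine h.trans (max_le le_rfl (max_le ?_ (by simp)))
    rw [mul_one_div, div_self hm.ne']
    exact_mod_cast (by omega : 1 ≤ 2 * (locK R n0 + 1))
  · intro z hz
    rw [← NNReal.coe_le_coe, coe_nnnorm, Real.norm_eq_abs]
    unfold zlin
    rw [abs_div, abs_of_pos hmR, div_le_iff₀ hmR]
    have h1 := hz.2.1
    have h2 := hz.2.2
    have e : ((((2 * (locK R n0 + 1) : ℕ) : ℝ≥0) : ℝ)) * P.g.m = ((c.ρ : ℕ) : ℝ) := by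
      unfold GCtx.ρ; push_cast; ring
    rw [e, ← Int.cast_abs, Int.abs_eq_natAbs]
    split_ifs <;> exact_mod_cast (by assumption)
  · intro z _ e
    rw [zlin_dif, ← NNReal.coe_le_coe, coe_nnnorm, Real.norm_eq_abs, abs_div, abs_of_pos hmR]
    push_cast
    gcongr
    obtain ⟨h1, h2⟩ := loc_dir_natAbs e
    split_ifs
    · rw [← Int.cast_abs, Int.abs_eq_natAbs]; exact_mod_cast h1
    · rw [← Int.cast_abs, Int.abs_eq_natAbs]; exact_mod_cast h2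
  · intro z _ e e'
    have : dif (dir e) (dif (dir e') (zlin P.g.m v0 i)) z = 0 := by
      have h' : dif (dir e') (zlin P.g.m v0 i) = fun _ => (((if i = 0 then (dir e').1 else (dir e').2) : ℤ) : ℝ) / P.g.m := by
        funext z'; exact zlin_dif _ _ _ _ _
      rw [h']; simp [dif]
    rw [this]; simp

/-- the field minus its affine approximation, in the chart -/
theorem GCtx.aff_chart (c : GCtx R n0 P X v0) (w : G.V → ℂ) (v : G.V) (ε : Fin 2 → Bool) {z : ℤ × ℤ}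
    (hz : z ∈ Rg G v0 (c.ρ + 2)) :
    w (G.π z) - w v0 - ∑ i, pvec P.g w v ε i * (ell P.g v0 i (G.π z) : ℂ)
      = zaff (G.lift w) (G.ι v0) (chart G v0 v) ε z := by
  have hm : (P.g.m : ℂ) ≠ 0 := by exact_mod_cast c.m_pos.ne'
  have hd : ∀ e, dif (dir e) (G.lift w) (chart G v0 v) = dif (dir e) (G.lift w) (G.ι v) := fun e => by
    have := loc_difs_chart ![e] w v0 v
    rwa [reg_difs_one] at this
  rw [Fin.sum_univ_two, c.ell_chart 0 hz, c.ell_chart 1 hz]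
  unfold zaff zsl pvec edir
  rw [hd, hd, loc_lift_iota]
  simp only [Geom.lift, Geom.ι, if_true, one_ne_zero, if_false]
  push_cast
  field_simp

/-- arithmetic of the constants -/
theorem loc_scale (L m Dn : ℝ≥0) (hL : 0 < L) (hm : 0 < m) (n Cb : ℝ≥0) (hn : n ≤ Cb * m ^ 2) :
    L ^ 2 * (n * (Dn / (L * m) ^ 2)) ≤ Cb * Dn := by
  calc L ^ 2 * (n * (Dn / (L * m) ^ 2)) ≤ L ^ 2 * (Cb * m ^ 2 * (Dn / (L * m) ^ 2)) := by gcongr
    _ = Cb * Dn := by field_simp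

/-- **the affine approximation** in the fine norm -/
theorem GCtx.aff (c : GCtx R n0 P X v0) (hB : P.g.Bulk X) {v : G.V} (hv : v ∈ P.g.sites X) (ε : Fin 2 → Bool) (w : G.V → ℂ) :
    (2 ^ ℓ : ℝ≥0) ^ 2 * tnorm P.g X (fun x => w x - w v0 - ∑ i, pvec P.g w v ε i * (ell P.g v0 i x : ℂ))
      ≤ ((4 * (locK R n0 + 1) * (8 * (locK R n0 + 1) + 1) : ℕ) : ℝ≥0) * dnorm P.g' (P.N.cl X) w := by
  have hL : (0 : ℝ≥0) < 2 ^ ℓ := by positivity
  have hm : (0 : ℝ≥0) < P.g.m := by exact_mod_cast c.m_pos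
  have hm1 : 1 ≤ P.g.m := c.m_pos
  have hm' := c.m'_pos
  set Dn := dnorm P.g' (P.N.cl X) w with hDn
  set k := locK R n0 + 1 with hk
  have hρk : c.ρ = 2 * k * P.g.m := by unfold GCtx.ρ; ring
  have hρ' : c.ρ ≤ P.g'.m := by have := c.ρ_le; omega
  set K2 : ℝ≥0 := Dn / (P.g'.m : ℝ≥0) ^ 2 with hK2
  have hvD : v ∈ P.g.Dm X := sites_mono P.g (reg_subset_collar P.g X) hv
  have hz := loc_z_aff (G.lift w) (G.ι v0) (chart G v0 v) ε c.ρ K2 (Rg G v0 c.ρ) (Rg_btw v0 c.ρ) (Rg_iota v0 _)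
    (c.chart_mem hvD) (fun z hz => ⟨by simpa [Geom.ι] using hz.2.1, by simpa [Geom.ι] using hz.2.2⟩)
    (fun z hz e e' => by
      rw [hK2, le_div_iff₀ (by positivity), mul_comm]
      exact c.d2_le w (Rg_mono v0 hρ' hz) e e')
  have h := c.transfer hB (fun x => w x - w v0 - ∑ i, pvec P.g w v ε i * (ell P.g v0 i x : ℂ))
    (zaff (G.lift w) (G.ι v0) (chart G v0 v) ε) (fun z hz => c.aff_chart w v ε hz)
    (((2 * c.ρ * (4 * c.ρ + 1) : ℕ) : ℝ≥0) * K2) (((4 * c.ρ + 1 : ℕ) : ℝ≥0) * K2) K2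
    (fun z hz' => (hz z hz').2.1) (fun z hz' => (hz z hz').1)
    (fun z hz' e e' => by
      rw [(hz z hz').2.2 e e', hK2, le_div_iff₀ (by positivity), mul_comm]
      exact c.d2_le w (Rg_mono v0 hρ' hz') e e')
  have hK2' : K2 = Dn / (2 ^ ℓ * (P.g.m : ℝ≥0)) ^ 2 := by rw [hK2, c.m'_eq]
  set Cb : ℕ := 4 * k * (8 * k + 1) with hCb
  have n1 : 2 * c.ρ * (4 * c.ρ + 1) ≤ Cb * P.g.m ^ 2 := by
    rw [hρk, hCb]
    have : 4 * (2 * k * P.g.m) + 1 ≤ (8 * k + 1) * P.g.m := by nlinarith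
    calc 2 * (2 * k * P.g.m) * (4 * (2 * k * P.g.m) + 1) ≤ 2 * (2 * k * P.g.m) * ((8 * k + 1) * P.g.m) :=
          Nat.mul_le_mul_left _ this
      _ = _ := by ring
  have n2 : P.g.m * (4 * c.ρ + 1) ≤ Cb * P.g.m ^ 2 := by
    rw [hρk, hCb]
    have : 4 * (2 * k * P.g.m) + 1 ≤ (8 * k + 1) * P.g.m := by nlinarith
    have hk1 : 1 ≤ k := by omega
    calc P.g.m * (4 * (2 * k * P.g.m) + 1) ≤ P.g.m * ((8 * k + 1) * P.g.m) := Nat.mul_le_mul_left _ this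
      _ = 1 * ((8 * k + 1) * P.g.m ^ 2) := by ring
      _ ≤ (4 * k) * ((8 * k + 1) * P.g.m ^ 2) := Nat.mul_le_mul_right _ (by omega)
      _ = _ := by ring
  have n3 : P.g.m ^ 2 ≤ Cb * P.g.m ^ 2 := by
    have hk1 : 1 ≤ k := by omega
    have : 1 ≤ Cb := by rw [hCb]; nlinarith
    nlinarith
  calc (2 ^ ℓ : ℝ≥0) ^ 2 * tnorm P.g X (fun x => w x - w v0 - ∑ i, pvec P.g w v ε i * (ell P.g v0 i x : ℂ))
      ≤ (2 ^ ℓ : ℝ≥0) ^ 2 * max (((2 * c.ρ * (4 * c.ρ + 1) : ℕ) : ℝ≥0) * K2)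
          (max (P.g.m * (((4 * c.ρ + 1 : ℕ) : ℝ≥0) * K2)) ((P.g.m : ℝ≥0) ^ 2 * K2)) := by gcongr
    _ ≤ (Cb : ℝ≥0) * Dn := by
        rw [mul_max, mul_max]
        refine max_le ?_ (max_le ?_ ?_)
        · rw [hK2']
          exact loc_scale _ _ _ hL hm _ _ (by exact_mod_cast n1)
        · rw [hK2', ← mul_assoc (P.g.m : ℝ≥0)]
          exact loc_scale _ _ _ hL hm _ _ (by exact_mod_cast n2)
        · rw [hK2']
          exact loc_scale _ _ _ hL hm _ _ (by exact_mod_cast n3)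

end

end Claimed.Agent.R285.Loc
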