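import Claimed.Agent.R285.Loc.Core
import Claimed.Agent.R285.Loc.Geo

/-!
# ROW 285, package PK-LOC ([B] Lemma 4.5), file 10: the pointwise estimates (real numbers)      (owner helper276)
-/

set_option autoImplicit false

namespace Claimed.Agent.R285.Loc

open scoped BigOperators ENNReal NNReal
open MeasureTheory Metric
open Claimed.Agent.R285.RG Claimed.Agent.R285.Hol

noncomputable section

variable {G : Geom}

/-- `E_r = sup_t (1 + (6/h₀) √t)^r e^{-κ t/2}` (an upper bound) -/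
def locE (h0 : ℝ≥0) (κ : ℝ) (r : ℕ) : ℝ := Real.exp ((r * (6 / (h0 : ℝ))) ^ 2 / (2 * κ))

/-- `1 + (6/h₀) √t` -/
def locY (h0 : ℝ≥0) (t : ℝ) : ℝ := 1 + 6 / (h0 : ℝ) * Real.sqrt t

theorem locE_pos (h0 : ℝ≥0) (κ : ℝ) (r : ℕ) : 0 < locE h0 κ r := Real.exp_pos _

theorem locY_ge_one (h0 : ℝ≥0) (t : ℝ) : 1 ≤ locY h0 t := by
  unfold locY
  have : 0 ≤ 6 / (h0 : ℝ) * Real.sqrt t := by positivity
  linarith

/-- the context of the pointwise estimates -/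
structure Ctx (h0 : ℝ≥0) {D0 ℓ : ℕ} (P : Pair G D0 ℓ) (δ κ : ℝ) (Vc : Extra P.g') (X : Finset P.g.I) (H : Fn G) (M : ℝ)
    (Cg : ℝ≥0) (v0 : G.V) : Prop where
  hH : HOK h0 P δ κ Vc X H M
  hh : 0 < h0
  hδ : 0 ≤ δ
  hκ : 0 < κ
  hM : 0 ≤ M
  hCg : 0 < Cg
  hL : Cg < 2 ^ ℓ
  osc : ∀ w : G.V → ℂ, (2 ^ ℓ : ℝ≥0) * tnorm P.g X (fun x => w x - w v0) ≤ Cg * dnorm P.g' (P.N.cl X) w

variable {h0 : ℝ≥0} {D0 ℓ : ℕ} {P : Pair G D0 ℓ} {δ κ : ℝ} {Vc : Extra P.g'} {X : Finset P.g.I} {H : Fn G} {M : ℝ}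
  {Cg : ℝ≥0} {v0 : G.V}

theorem loc_dn_le (hh : 0 < h0) (g : Grid G) (hg : g.Ok) (hδ : 0 ≤ δ) (Y : Finset g.I) (ψ : G.V → ℝ) (f : G.V → ℂ)
    (hf : tnorm g Y f < h0) : (dnorm g Y (toC ψ + f) : ℝ) ≤ h0 * locY h0 (U g δ Y ψ) := by
  have hh' : (0 : ℝ) < h0 := by exact_mod_cast hh
  have h1 : (dnorm g Y (toC ψ + f) : ℝ) ≤ dnorm g Y ψ + tnorm g Y f := by
    have := (dnorm_add_le g Y (toC ψ) f).trans (add_le_add (dnorm_toC_le g Y ψ) (dnorm_le_tnorm g Y f))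
    exact_mod_cast this
  have h2 := loc_sobolev g hg hδ Y ψ
  have h3 : (tnorm g Y f : ℝ) ≤ h0 := by exact_mod_cast hf.le
  have e : (h0 : ℝ) * locY h0 (U g δ Y ψ) = h0 + 6 * Real.sqrt (U g δ Y ψ) := by
    unfold locY; field_simp
  rw [e]; linarith

/-- the centred field -/
def ctr (v0 : G.V) (w : G.V → ℂ) : G.V → ℂ := fun x => w x - w v0

theorem Ctx.two_pow_pos : (0 : ℝ) < 2 ^ ℓ := by positivity

/-- (rg:fine-radius) -/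
theorem Ctx.ctr_le (c : Ctx h0 P δ κ Vc X H M Cg v0) (ψ : G.V → ℝ) (f : G.V → ℂ) (hf : tnorm P.g' (P.N.cl X) f < h0) :
    (tnorm P.g X (ctr v0 (toC ψ + f)) : ℝ) ≤ Cg * h0 * locY h0 (U P.g' δ (P.N.cl X) ψ) / 2 ^ ℓ := by
  have h1 : ((2 : ℝ) ^ ℓ) * (tnorm P.g X (ctr v0 (toC ψ + f)) : ℝ) ≤ Cg * dnorm P.g' (P.N.cl X) (toC ψ + f) := by
    exact_mod_cast c.osc (toC ψ + f)
  have h2 := loc_dn_le c.hh P.g' P.ok' c.hδ (P.N.cl X) ψ f hf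
  rw [le_div_iff₀ (by positivity), mul_comm]
  calc (2 : ℝ) ^ ℓ * (tnorm P.g X (ctr v0 (toC ψ + f)) : ℝ) ≤ Cg * dnorm P.g' (P.N.cl X) (toC ψ + f) := h1
    _ ≤ Cg * (h0 * locY h0 (U P.g' δ (P.N.cl X) ψ)) := by gcongr
    _ = _ := by ring

/-- the centred direction stays in the fine polydisc -/
theorem Ctx.ctr_dir (c : Ctx h0 P δ κ Vc X H M Cg v0) (f : G.V → ℂ) (hf : tnorm P.g' (P.N.cl X) f < h0) :
    tnorm P.g X (ctr v0 f) < h0 := by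
  have h1 := c.osc f
  have h2 : dnorm P.g' (P.N.cl X) f ≤ h0 := (dnorm_le_tnorm _ _ _).trans hf.le
  have h3 : (2 ^ ℓ : ℝ≥0) * tnorm P.g X (ctr v0 f) < 2 ^ ℓ * h0 :=
    calc (2 ^ ℓ : ℝ≥0) * tnorm P.g X (ctr v0 f) ≤ Cg * dnorm P.g' (P.N.cl X) f := h1
      _ ≤ Cg * h0 := by gcongr
      _ < 2 ^ ℓ * h0 := mul_lt_mul_of_pos_right c.hL c.hh
  exact lt_of_mul_lt_mul_left' h3

theorem ctr_add (v0 : G.V) (ψ : G.V → ℝ) (f : G.V → ℂ) :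
    ctr v0 (toC ψ + f) = toC (fun x => ψ x - ψ v0) + ctr v0 f := by
  ext x; simp [ctr, toC]; ring

/-- constant invariance -/
theorem Ctx.H_ctr (c : Ctx h0 P δ κ Vc X H M Cg v0) (ψ : G.V → ℝ) (f : G.V → ℂ) (hf : tnorm P.g' (P.N.cl X) f < h0) :
    H (toC ψ + f) = H (ctr v0 (toC ψ + f)) := by
  have h1 : ctr v0 (toC ψ + f) ∈ strip h0 P.g X := by
    rw [ctr_add]; exact toC_add_mem_strip _ (c.ctr_dir f hf)
  have h2 : toC ψ + f ∈ strip h0 P.g X :=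
    toC_add_mem_strip _ ((tnorm_coarse P X _ subset_rfl f).trans_lt hf)
  have e : (fun v => ctr v0 (toC ψ + f) v + (toC ψ + f) v0) = toC ψ + f := by ext v; simp [ctr]
  have := c.hH.inv (ctr v0 (toC ψ + f)) ((toC ψ + f) v0) h1 (by rw [e]; exact h2)
  rw [e] at this
  exact this

theorem loc_Wt_split (g : Grid G) (δ κ : ℝ) (V : Extra g) (Y : Finset g.I) (ψ : G.V → ℝ) :
    Wt g δ κ V Y ψ = Real.exp (κ * U g δ Y ψ / 2) * Wt g δ (κ / 2) V Y ψ := by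
  unfold Wt; rw [← Real.exp_add]; congr 1; ring

/-- **the Taylor remainder of order `r`**, (rg:taylor-bound) -/
theorem Ctx.rem (c : Ctx h0 P δ κ Vc X H M Cg v0) (ψ : G.V → ℝ) (f : G.V → ℂ) (hf : tnorm P.g' (P.N.cl X) f < h0) (r : ℕ) :
    ‖H (toC ψ + f) - ∑ k ∈ Finset.range r, ((k.factorial : ℂ))⁻¹ *
        iteratedDeriv k (fun s : ℂ => H (s • ctr v0 (toC ψ + f))) 0‖
      ≤ (r + 2) * (4 * Cg) ^ r * locE h0 κ r * M * (((2 : ℝ) ^ ℓ)⁻¹) ^ r * Wt P.g' δ κ Vc (P.N.cl X) ψ := by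
  have hh' : (0 : ℝ) < h0 := by exact_mod_cast c.hh
  have hCg' : (0 : ℝ) < Cg := by exact_mod_cast c.hCg
  set t := U P.g' δ (P.N.cl X) ψ with ht
  have ht0 : 0 ≤ t := U_nonneg _ c.hδ _ _
  have hy := locY_ge_one h0 t
  set W2 := Wt P.g' δ (κ / 2) Vc (P.N.cl X) ψ with hW2
  have hW2' : 1 ≤ W2 := one_le_Wt _ c.hδ (by have := c.hκ; positivity) _ _ _
  have hA : 0 < (Cg : ℝ) * h0 * locY h0 t / 2 ^ ℓ := by positivity
  have hb : ‖H (ctr v0 (toC ψ + f))‖ ≤ M * W2 := by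
    rw [← c.H_ctr ψ f hf]
    exact c.hH.bd ψ f ((tnorm_coarse P X _ subset_rfl f).trans_lt hf)
  have hMM : M ≤ M * W2 := by have := c.hM; nlinarith
  have key := loc_taylor c.hH c.hh (ctr v0 (toC ψ + f)) hA (c.ctr_le ψ f hf) hb hMM r
  rw [← c.H_ctr ψ f hf] at key
  refine key.trans ?_
  have e1 : 4 * ((Cg : ℝ) * h0 * locY h0 t / 2 ^ ℓ) / h0 = (4 * Cg) * ((2 : ℝ) ^ ℓ)⁻¹ * locY h0 t := by
    field_simp
  have hpe := loc_poly_exp (a := 6 / (h0 : ℝ)) (κ := κ) (t := t) (by positivity) c.hκ ht0 r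
  rw [e1, mul_pow, mul_pow, loc_Wt_split, ← hW2, ← ht]
  have hM := c.hM
  calc ((r : ℝ) + 2) * (M * W2) * ((4 * (Cg : ℝ)) ^ r * (((2 : ℝ) ^ ℓ)⁻¹) ^ r * locY h0 t ^ r)
      ≤ ((r : ℝ) + 2) * (M * W2) * ((4 * (Cg : ℝ)) ^ r * (((2 : ℝ) ^ ℓ)⁻¹) ^ r * (locE h0 κ r * Real.exp (κ * t / 2))) := by
        gcongr
        exact hpe
    _ = _ := by ring

end

end Claimed.Agent.R285.Loc
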