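import Claimed.Agent.R285.Loc.Point

/-!
# ROW 285, package PK-LOC ([B] Lemma 4.5), file 11: the three pointwise gains      (owner helper276)
-/

set_option autoImplicit false

namespace Claimed.Agent.R285.Loc

open scoped BigOperators ENNReal NNReal
open MeasureTheory Metric
open Claimed.Agent.R285.RG Claimed.Agent.R285.Hol

noncomputable section

variable {G : Geom}
variable {h0 : ℝ≥0} {D0 ℓ : ℕ} {P : Pair G D0 ℓ} {δ κ : ℝ} {Vc : Extra P.g'} {X : Finset P.g.I} {H : Fn G} {M : ℝ}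
  {Cg : ℝ≥0} {v0 : G.V}

/-- no evenness: gain `L⁻¹` -/
theorem Ctx.p1 (c : Ctx h0 P δ κ Vc X H M Cg v0) (ψ : G.V → ℝ) (f : G.V → ℂ) (hf : tnorm P.g' (P.N.cl X) f < h0) :
    ‖H (toC ψ + f) - H 0‖ ≤ 3 * (4 * Cg) * locE h0 κ 1 * M * ((2 : ℝ) ^ ℓ)⁻¹ * Wt P.g' δ κ Vc (P.N.cl X) ψ := by
  have h := c.rem ψ f hf 1
  simp only [Finset.range_one, Finset.sum_singleton, Nat.factorial_zero, Nat.cast_one, inv_one, one_mul, iteratedDeriv_zero,
    zero_smul, pow_one] at h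
  refine h.trans (le_of_eq ?_)
  norm_num

/-- odd derivatives along a line vanish for an even function -/
theorem loc_line_odd (hh : 0 < h0) {g : Grid G} {X : Finset g.I} {H : Fn G} (hev : ∀ z ∈ strip h0 g X, H (-z) = H z) (w : G.V → ℂ)
    (k : ℕ) (hk : Odd k) : iteratedDeriv k (fun s : ℂ => H (s • w)) 0 = 0 := by
  have hh' : (0 : ℝ) < h0 := by exact_mod_cast hh
  have hρ : 0 < (h0 : ℝ) / ((tnorm g X w : ℝ) + 1) := by positivity
  refine loc_odd_zero hρ (fun s hs => ?_) k hk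
  rw [mem_ball_zero_iff, lt_div_iff₀ (by positivity)] at hs
  have h1 : tnorm g X (s • w) < h0 := by
    rw [tnorm_smul, ← NNReal.coe_lt_coe]
    push_cast
    have : 0 ≤ ‖s‖ := norm_nonneg _
    nlinarith
  have := hev (s • w) (loc_mem_strip_of_tnorm h1)
  simpa using this

/-- even: gain `L⁻²` -/
theorem Ctx.p2 (c : Ctx h0 P δ κ Vc X H M Cg v0) (hev : ∀ z ∈ strip h0 P.g X, H (-z) = H z)
    (ψ : G.V → ℝ) (f : G.V → ℂ) (hf : tnorm P.g' (P.N.cl X) f < h0) :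
    ‖H (toC ψ + f) - H 0‖ ≤ 4 * (4 * Cg) ^ 2 * locE h0 κ 2 * M * (((2 : ℝ) ^ ℓ)⁻¹) ^ 2 * Wt P.g' δ κ Vc (P.N.cl X) ψ := by
  have h := c.rem ψ f hf 2
  rw [Finset.sum_range_succ, Finset.sum_range_succ, Finset.sum_range_zero,
    loc_line_odd c.hh hev _ 1 (by decide)] at h
  simp only [Nat.factorial_zero, Nat.cast_one, inv_one, one_mul, iteratedDeriv_zero, zero_smul, mul_zero, add_zero, zero_add] at h
  refine h.trans (le_of_eq ?_)
  norm_num

/-- even: the remainder after the quadratic Taylor term, gain `L⁻⁴` -/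
theorem Ctx.p4 (c : Ctx h0 P δ κ Vc X H M Cg v0) (hev : ∀ z ∈ strip h0 P.g X, H (-z) = H z)
    (ψ : G.V → ℝ) (f : G.V → ℂ) (hf : tnorm P.g' (P.N.cl X) f < h0) :
    ‖H (toC ψ + f) - (H 0 + (1 / 2 : ℂ) * fderiv ℂ (fderiv ℂ H) 0 (ctr v0 (toC ψ + f)) (ctr v0 (toC ψ + f)))‖
      ≤ 6 * (4 * Cg) ^ 4 * locE h0 κ 4 * M * (((2 : ℝ) ^ ℓ)⁻¹) ^ 4 * Wt P.g' δ κ Vc (P.N.cl X) ψ := by
  have h := c.rem ψ f hf 4
  have h0m : (0 : G.V → ℂ) ∈ strip h0 P.g X := loc_mem_strip_of_tnorm (by rw [tnorm_zero]; exact c.hh)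
  rw [Finset.sum_range_succ, Finset.sum_range_succ, Finset.sum_range_succ, Finset.sum_range_succ, Finset.sum_range_zero,
    loc_line_odd c.hh hev _ 1 (by decide), loc_line_odd c.hh hev _ 3 (by decide),
    loc_line_deriv2 (strip_isOpen h0 P.g X) h0m c.hH.hol, loc_d2_eq] at h
  simp only [Nat.factorial_zero, Nat.cast_one, inv_one, one_mul, iteratedDeriv_zero, zero_smul, mul_zero, add_zero, zero_add,
    Nat.factorial_two, Nat.cast_ofNat] at h
  have e : ((2 : ℂ))⁻¹ = 1 / 2 := by norm_num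
  rw [e] at h
  refine h.trans (le_of_eq ?_)
  norm_num

end

end Claimed.Agent.R285.Loc
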