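import Claimed.Agent.R285.Loc.Point2

/-!
# ROW 285, package PK-LOC ([B] Lemma 4.5), file 12: the quadratic localisation, pointwise      (owner helper276)
-/

set_option autoImplicit false

namespace Claimed.Agent.R285.Loc

open scoped BigOperators ENNReal NNReal
open MeasureTheory Metric
open Claimed.Agent.R285.RG Claimed.Agent.R285.Hol

noncomputable section

variable {G : Geom}
variable {h0 : ℝ≥0} {D0 ℓ : ℕ} {P : Pair G D0 ℓ} {δ κ : ℝ} {Vc : Extra P.g'} {X : Finset P.g.I} {H : Fn G} {M : ℝ}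
  {Cg : ℝ≥0} {v0 : G.V}

/-- the affine field with the slopes of `w` at `(v, ε)` -/
def lin (g : Grid G) (v0 : G.V) (w : G.V → ℂ) (v : G.V) (ε : Fin 2 → Bool) : G.V → ℂ :=
  ∑ i, pvec g w v ε i • toC (ell g v0 i)

theorem ctr_sub_lin (g : Grid G) (v0 : G.V) (w : G.V → ℂ) (v : G.V) (ε : Fin 2 → Bool) :
    ctr v0 w - lin g v0 w v ε = fun x => w x - w v0 - ∑ i, pvec g w v ε i * (ell g v0 i x : ℂ) := by
  ext x
  simp [ctr, lin, toC]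

/-- the additional hypotheses in the bulk -/
structure CtxB (h0 : ℝ≥0) {D0 ℓ : ℕ} (P : Pair G D0 ℓ) (X : Finset P.g.I) (Cg : ℝ≥0) (v0 : G.V) : Prop where
  ell : ∀ i, tnorm P.g X (ell P.g v0 i) ≤ Cg
  aff : ∀ v ∈ P.g.sites X, ∀ (ε : Fin 2 → Bool) (w : G.V → ℂ),
    (2 ^ ℓ : ℝ≥0) ^ 2 * tnorm P.g X (fun x => w x - w v0 - ∑ i, pvec P.g w v ε i * (RG.ell P.g v0 i x : ℂ))
      ≤ Cg * dnorm P.g' (P.N.cl X) w
  card : (P.g.sites X).card = X.card * P.g.m ^ 2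
  ne : X.Nonempty

theorem loc_sites_sum {α : Type} [AddCommMonoid α] (g : Grid G) (Y : Finset g.I) (F : G.V → α) :
    ∑ b ∈ Y, ∑ v ∈ g.sites {b}, F v = ∑ v ∈ g.sites Y, F v := by
  classical
  have h : ∀ b ∈ Y, g.sites {b} = (g.sites Y).filter fun v => g.blk v = b := by
    intro b hb
    ext v
    simp only [Grid.sites, Finset.mem_filter, Finset.mem_univ, true_and, Finset.mem_singleton]
    constructor
    · intro h; exact ⟨h ▸ hb, h⟩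
    · intro h; exact h.2
  rw [Finset.sum_congr rfl fun b hb => by rw [h b hb]]
  exact Finset.sum_fiberwise_of_maps_to (fun v hv => by simpa [Grid.sites] using hv) F

/-- the bound of `D^X` -/
theorem Ctx.DX_le (c : Ctx h0 P δ κ Vc X H M Cg v0) (b : CtxB h0 P X Cg v0) (i j : Fin 2) :
    ‖DX P.g v0 H i j‖ ≤ 9 * M * Cg * Cg / (h0 : ℝ) ^ 2 := by
  have hCg' : (0 : ℝ) < Cg := by exact_mod_cast c.hCg
  refine loc_d2 c.hH c.hh _ _ hCg' hCg' ?_ ?_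
  · rw [tnorm_toC]; exact_mod_cast b.ell i
  · rw [tnorm_toC]; exact_mod_cast b.ell j

theorem Ctx.H0_le (c : Ctx h0 P δ κ Vc X H M Cg v0) : ‖H 0‖ ≤ M :=
  c.hH.bd0 0 (by rw [tnorm_zero]; exact c.hh)

/-- the affine approximation in the fine norm -/
theorem Ctx.aff_le (c : Ctx h0 P δ κ Vc X H M Cg v0) (b : CtxB h0 P X Cg v0) (ψ : G.V → ℝ) (f : G.V → ℂ)
    (hf : tnorm P.g' (P.N.cl X) f < h0) {v : G.V} (hv : v ∈ P.g.sites X) (ε : Fin 2 → Bool) :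
    (tnorm P.g X (ctr v0 (toC ψ + f) - lin P.g v0 (toC ψ + f) v ε) : ℝ)
      ≤ Cg * h0 * locY h0 (U P.g' δ (P.N.cl X) ψ) / (2 ^ ℓ) ^ 2 := by
  rw [ctr_sub_lin]
  have h1 : (((2 : ℝ) ^ ℓ) ^ 2) * (tnorm P.g X (fun x => (toC ψ + f) x - (toC ψ + f) v0
      - ∑ i, pvec P.g (toC ψ + f) v ε i * (RG.ell P.g v0 i x : ℂ)) : ℝ) ≤ Cg * dnorm P.g' (P.N.cl X) (toC ψ + f) := by
    exact_mod_cast b.aff v hv ε (toC ψ + f)
  have h2 := loc_dn_le c.hh P.g' P.ok' c.hδ (P.N.cl X) ψ f hf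
  rw [le_div_iff₀ (by positivity), mul_comm]
  refine h1.trans ?_
  calc (Cg : ℝ) * dnorm P.g' (P.N.cl X) (toC ψ + f) ≤ Cg * (h0 * locY h0 (U P.g' δ (P.N.cl X) ψ)) := by gcongr
    _ = _ := by ring

/-- comparison of the two quadratic forms -/
theorem Ctx.quad_le (c : Ctx h0 P δ κ Vc X H M Cg v0) (b : CtxB h0 P X Cg v0) (ψ : G.V → ℝ) (f : G.V → ℂ)
    (hf : tnorm P.g' (P.N.cl X) f < h0) {v : G.V} (hv : v ∈ P.g.sites X) (ε : Fin 2 → Bool) :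
    ‖fderiv ℂ (fderiv ℂ H) 0 (ctr v0 (toC ψ + f)) (ctr v0 (toC ψ + f))
        - fderiv ℂ (fderiv ℂ H) 0 (lin P.g v0 (toC ψ + f) v ε) (lin P.g v0 (toC ψ + f) v ε)‖
      ≤ 27 * M * (Cg : ℝ) ^ 2 * locY h0 (U P.g' δ (P.N.cl X) ψ) ^ 2 * (((2 : ℝ) ^ ℓ)⁻¹) ^ 3 := by
  have hh' : (0 : ℝ) < h0 := by exact_mod_cast c.hh
  have hCg' : (0 : ℝ) < Cg := by exact_mod_cast c.hCg
  set y := locY h0 (U P.g' δ (P.N.cl X) ψ) with hy
  have hy1 : 1 ≤ y := locY_ge_one _ _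
  set w := ctr v0 (toC ψ + f) with hw
  set l := lin P.g v0 (toC ψ + f) v ε with hl
  set L : ℝ := (2 : ℝ) ^ ℓ with hL
  have hL1 : 1 ≤ L := one_le_pow₀ (by norm_num)
  have hA1 : 0 < (Cg : ℝ) * h0 * y / L := by positivity
  have hA2 : 0 < (Cg : ℝ) * h0 * y / L ^ 2 := by positivity
  have h1 : (tnorm P.g X w : ℝ) ≤ Cg * h0 * y / L := c.ctr_le ψ f hf
  have h2 : (tnorm P.g X (w - l) : ℝ) ≤ Cg * h0 * y / L ^ 2 := c.aff_le b ψ f hf hv ε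
  have h3 : (tnorm P.g X l : ℝ) ≤ Cg * h0 * y / L + Cg * h0 * y / L ^ 2 := by
    have e : l = w + -(w - l) := by abel
    have := tnorm_add_le P.g X w (-(w - l))
    rw [← e, tnorm_neg] at this
    have h' : (tnorm P.g X l : ℝ) ≤ tnorm P.g X w + tnorm P.g X (w - l) := by exact_mod_cast this
    linarith
  rw [loc_bil_sub]
  have b1 := loc_d2 c.hH c.hh (w - l) w hA2 hA1 h2 h1
  have b2 := loc_d2 c.hH c.hh l (w - l) (add_pos hA1 hA2) hA2 h3 h2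
  rw [loc_d2_eq] at b1 b2
  refine (norm_add_le _ _).trans ((add_le_add b1 b2).trans ?_)
  have hM := c.hM
  have e : 9 * M * (Cg * h0 * y / L ^ 2) * (Cg * h0 * y / L) / (h0 : ℝ) ^ 2
      + 9 * M * (Cg * h0 * y / L + Cg * h0 * y / L ^ 2) * (Cg * h0 * y / L ^ 2) / (h0 : ℝ) ^ 2
      = 9 * M * (Cg : ℝ) ^ 2 * y ^ 2 * (L⁻¹) ^ 3 * (2 + L⁻¹) := by
    field_simp
    ring
  rw [e]
  have hLi : L⁻¹ ≤ 1 := inv_le_one_of_one_le₀ hL1
  have hpos : 0 ≤ 9 * M * (Cg : ℝ) ^ 2 * y ^ 2 * (L⁻¹) ^ 3 := by positivity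
  nlinarith

end

end Claimed.Agent.R285.Loc
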