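import Claimed.Agent.R285.Loc.Quad

/-!
# ROW 285, package PK-LOC ([B] Lemma 4.5), file 13: the quadratic localisation, pointwise, gain `L⁻³`      (owner helper276)
-/

set_option autoImplicit false

namespace Claimed.Agent.R285.Loc

open scoped BigOperators ENNReal NNReal
open MeasureTheory Metric
open Claimed.Agent.R285.RG Claimed.Agent.R285.Hol

noncomputable section

variable {G : Geom}
variable {h0 : ℝ≥0} {D0 ℓ : ℕ} {P : Pair G D0 ℓ} {δ κ : ℝ} {Vc : Extra P.g'} {X : Finset P.g.I} {H : Fn G} {M : ℝ}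
  {Cg : ℝ≥0} {v0 : G.V}

/-- the quadratic form of `Loc` is `D²H(0)` at the affine field -/
theorem loc_form_eq (g : Grid G) (v0 : G.V) (H : Fn G) (w : G.V → ℂ) (v : G.V) (ε : Fin 2 → Bool) :
    ∑ i, ∑ j, pvec g w v ε i * DX g v0 H i j * pvec g w v ε j
      = fderiv ℂ (fderiv ℂ H) 0 (lin g v0 w v ε) (lin g v0 w v ε) := by
  unfold lin
  rw [loc_bil_sum]
  refine Finset.sum_congr rfl fun i _ => Finset.sum_congr rfl fun j _ => ?_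
  unfold DX
  rw [loc_d2_eq]

/-- the sum of the local pieces -/
theorem loc_sum_Loc (g : Grid G) (X : Finset g.I) (hX : X.Nonempty) (v0 : G.V) (H : Fn G) (w : G.V → ℂ) :
    ∑ B ∈ X, Loc g X v0 H B w = H 0 + (1 / (X.card : ℂ)) * ((1 / (2 * (g.m : ℂ) ^ 2)) * ∑ v ∈ g.sites X,
      (1 / 4 : ℂ) * ∑ ε : Fin 2 → Bool, fderiv ℂ (fderiv ℂ H) 0 (lin g v0 w v ε) (lin g v0 w v ε)) := by
  have hN : (X.card : ℂ) ≠ 0 := by exact_mod_cast hX.card_pos.ne'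
  unfold Loc
  simp only [loc_form_eq]
  rw [← Finset.mul_sum, Finset.sum_add_distrib, ← Finset.mul_sum, loc_sites_sum g X, Finset.sum_const, nsmul_eq_mul, mul_add]
  congr 1
  field_simp

/-- a constant as an average over `(v, ε)` -/
theorem loc_avg_const (g : Grid G) (hm : 0 < g.m) (X : Finset g.I) (hX : X.Nonempty) (hc : (g.sites X).card = X.card * g.m ^ 2) (q : ℂ) :
    (1 / 2 : ℂ) * q = (1 / (X.card : ℂ)) * ((1 / (2 * (g.m : ℂ) ^ 2)) * ∑ _v ∈ g.sites X,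
      (1 / 4 : ℂ) * ∑ _ε : Fin 2 → Bool, q) := by
  have hN : (X.card : ℂ) ≠ 0 := by exact_mod_cast hX.card_pos.ne'
  have hm' : (g.m : ℂ) ≠ 0 := by exact_mod_cast hm.ne'
  have h4 : (Finset.univ : Finset (Fin 2 → Bool)).card = 4 := by simp
  rw [Finset.sum_const, Finset.sum_const, h4, hc]
  simp only [nsmul_eq_mul]
  push_cast
  field_simp

/-- even, bulk: gain `L⁻³` -/
theorem Ctx.p3 (c : Ctx h0 P δ κ Vc X H M Cg v0) (b : CtxB h0 P X Cg v0) (hev : ∀ z ∈ strip h0 P.g X, H (-z) = H z)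
    (ψ : G.V → ℝ) (f : G.V → ℂ) (hf : tnorm P.g' (P.N.cl X) f < h0) :
    ‖H (toC ψ + f) - ∑ B ∈ X, Loc P.g X v0 H B (toC ψ + f)‖
      ≤ (6 * (4 * Cg) ^ 4 * locE h0 κ 4 + 14 * (Cg : ℝ) ^ 2 * locE h0 κ 2) * M * (((2 : ℝ) ^ ℓ)⁻¹) ^ 3
        * Wt P.g' δ κ Vc (P.N.cl X) ψ := by
  have hN : (0 : ℝ) < X.card := by exact_mod_cast b.ne.card_pos
  have hm : (0 : ℝ) < P.g.m := by exact_mod_cast P.ok.pos
  set w := toC ψ + f with hw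
  set Bf := fderiv ℂ (fderiv ℂ H) 0 with hBf
  set t := U P.g' δ (P.N.cl X) ψ with ht
  have ht0 : 0 ≤ t := U_nonneg _ c.hδ _ _
  set L : ℝ := (2 : ℝ) ^ ℓ with hL
  have hL1 : 1 ≤ L := one_le_pow₀ (by norm_num)
  have hLi : L⁻¹ ≤ 1 := inv_le_one_of_one_le₀ hL1
  have hLi0 : 0 < L⁻¹ := by positivity
  set Wk := Wt P.g' δ κ Vc (P.N.cl X) ψ with hWk
  have hM := c.hM
  have hCg' : (0 : ℝ) < Cg := by exact_mod_cast c.hCg
  -- decomposition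
  have e : H w - ∑ B ∈ X, Loc P.g X v0 H B w
      = (H w - (H 0 + (1 / 2 : ℂ) * Bf (ctr v0 w) (ctr v0 w)))
        + (1 / (X.card : ℂ)) * ((1 / (2 * (P.g.m : ℂ) ^ 2)) * ∑ v ∈ P.g.sites X,
          (1 / 4 : ℂ) * ∑ ε : Fin 2 → Bool, (Bf (ctr v0 w) (ctr v0 w) - Bf (lin P.g v0 w v ε) (lin P.g v0 w v ε))) := by
    rw [loc_sum_Loc P.g X b.ne, loc_avg_const P.g P.ok.pos X b.ne b.card (Bf (ctr v0 w) (ctr v0 w))]
    simp only [Finset.sum_sub_distrib, mul_sub]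
    ring
  rw [e]
  set Q : ℝ := 27 * M * (Cg : ℝ) ^ 2 * locY h0 t ^ 2 * (L⁻¹) ^ 3 with hQ
  have hQ0 : 0 ≤ Q := by have := locY_ge_one h0 t; positivity
  have hsum : ‖(1 / (X.card : ℂ)) * ((1 / (2 * (P.g.m : ℂ) ^ 2)) * ∑ v ∈ P.g.sites X,
      (1 / 4 : ℂ) * ∑ ε : Fin 2 → Bool, (Bf (ctr v0 w) (ctr v0 w) - Bf (lin P.g v0 w v ε) (lin P.g v0 w v ε)))‖ ≤ Q / 2 := by
    have h1 : ∀ v ∈ P.g.sites X, ‖(1 / 4 : ℂ) * ∑ ε : Fin 2 → Bool,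
        (Bf (ctr v0 w) (ctr v0 w) - Bf (lin P.g v0 w v ε) (lin P.g v0 w v ε))‖ ≤ Q := by
      intro v hv
      rw [norm_mul]
      have h2 : ‖∑ ε : Fin 2 → Bool, (Bf (ctr v0 w) (ctr v0 w) - Bf (lin P.g v0 w v ε) (lin P.g v0 w v ε))‖ ≤ 4 * Q := by
        refine (norm_sum_le _ _).trans ?_
        have := Finset.sum_le_sum (s := (Finset.univ : Finset (Fin 2 → Bool))) fun ε _ => c.quad_le b ψ f hf hv ε
        refine this.trans (le_of_eq ?_)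
        rw [Finset.sum_const]; simp [hQ, ht, hL]
      have h3 : ‖(1 / 4 : ℂ)‖ = 1 / 4 := by norm_num
      rw [h3]; linarith
    rw [norm_mul, norm_mul]
    have h4 : ‖∑ v ∈ P.g.sites X, (1 / 4 : ℂ) * ∑ ε : Fin 2 → Bool,
        (Bf (ctr v0 w) (ctr v0 w) - Bf (lin P.g v0 w v ε) (lin P.g v0 w v ε))‖ ≤ (X.card * (P.g.m : ℝ) ^ 2) * Q := by
      refine (norm_sum_le _ _).trans ((Finset.sum_le_sum h1).trans (le_of_eq ?_))
      rw [Finset.sum_const, b.card]; simp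
    have h5 : ‖(1 / (X.card : ℂ))‖ = 1 / (X.card : ℝ) := by simp
    have h6 : ‖(1 / (2 * (P.g.m : ℂ) ^ 2))‖ = 1 / (2 * (P.g.m : ℝ) ^ 2) := by simp
    rw [h5, h6]
    calc 1 / (X.card : ℝ) * (1 / (2 * (P.g.m : ℝ) ^ 2) * ‖∑ v ∈ P.g.sites X, (1 / 4 : ℂ) * ∑ ε : Fin 2 → Bool,
        (Bf (ctr v0 w) (ctr v0 w) - Bf (lin P.g v0 w v ε) (lin P.g v0 w v ε))‖)
        ≤ 1 / (X.card : ℝ) * (1 / (2 * (P.g.m : ℝ) ^ 2) * ((X.card * (P.g.m : ℝ) ^ 2) * Q)) := by gcongr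
      _ = Q / 2 := by field_simp
  refine (norm_add_le _ _).trans ((add_le_add (c.p4 hev ψ f hf) hsum).trans ?_)
  -- arithmetic
  have hpe := loc_poly_exp (a := 6 / (h0 : ℝ)) (κ := κ) (t := t) (by positivity) c.hκ ht0 2
  have hW2 : Real.exp (κ * t / 2) ≤ Wk := by
    rw [hWk, loc_Wt_split]
    have h1 : 1 ≤ Wt P.g' δ (κ / 2) Vc (P.N.cl X) ψ := one_le_Wt _ c.hδ (by have := c.hκ; positivity) _ _ _
    have h2 : 0 < Real.exp (κ * t / 2) := Real.exp_pos _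
    rw [← ht]
    nlinarith
  have hy2 : locY h0 t ^ 2 ≤ locE h0 κ 2 * Wk := by
    refine hpe.trans ?_
    have := locE_pos h0 κ 2
    unfold locE at this ⊢
    push_cast at this ⊢
    gcongr
  have hWk0 : 0 < Wk := Wt_pos _ _ _ _ _ _
  have hE4 := locE_pos h0 κ 4
  have t1 : 6 * (4 * (Cg : ℝ)) ^ 4 * locE h0 κ 4 * M * (L⁻¹) ^ 4 * Wk
      ≤ 6 * (4 * (Cg : ℝ)) ^ 4 * locE h0 κ 4 * M * (L⁻¹) ^ 3 * Wk := by
    have : (L⁻¹) ^ 4 ≤ (L⁻¹) ^ 3 := pow_le_pow_of_le_one hLi0.le hLi (by norm_num)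
    gcongr
  have t2 : Q / 2 ≤ 14 * (Cg : ℝ) ^ 2 * locE h0 κ 2 * M * (L⁻¹) ^ 3 * Wk := by
    rw [hQ]
    have : 27 * M * (Cg : ℝ) ^ 2 * locY h0 t ^ 2 * (L⁻¹) ^ 3 ≤ 27 * M * (Cg : ℝ) ^ 2 * (locE h0 κ 2 * Wk) * (L⁻¹) ^ 3 := by
      gcongr
    have h0' : 0 ≤ M * (Cg : ℝ) ^ 2 * (locE h0 κ 2 * Wk) * (L⁻¹) ^ 3 := by
      have := locE_pos h0 κ 2; positivity
    nlinarith
  calc _ ≤ 6 * (4 * (Cg : ℝ)) ^ 4 * locE h0 κ 4 * M * (L⁻¹) ^ 3 * Wk + 14 * (Cg : ℝ) ^ 2 * locE h0 κ 2 * M * (L⁻¹) ^ 3 * Wk :=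
        add_le_add t1 t2
    _ = _ := by ring

end

end Claimed.Agent.R285.Loc
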